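import Vale.Agent.P047.Beat.Defs

namespace Vale.Agent.P047

open Finset

lemma cc_pos (j : ℕ) : 0 < cc j := by
  unfold cc
  have : 0 < (Nat.centralBinom j : ℝ) := by exact_mod_cast Nat.centralBinom_pos j
  positivity

lemma cc_succ (j : ℕ) : (2 * (j : ℝ) + 2) * cc (j + 1) = (2 * (j : ℝ) + 1) * cc j := by
  unfold cc
  have h : ((j : ℝ) + 1) * (Nat.centralBinom (j + 1) : ℝ)
      = 2 * (2 * (j : ℝ) + 1) * (Nat.centralBinom j : ℝ) := by
    exact_mod_cast Nat.succ_mul_centralBinom_succ j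
  rw [pow_succ]
  field_simp
  linear_combination 2 * h

lemma cc_antitone : Antitone cc := by
  refine antitone_nat_of_succ_le fun j => ?_
  have h := cc_succ j
  have h0 := cc_pos j
  have h1 := cc_pos (j + 1)
  have hj : (0 : ℝ) ≤ j := Nat.cast_nonneg j
  nlinarith

/-- Wallis: `C(2j,j)^2/16^j ≥ 1/(π (j + 1/2))`. -/
lemma cc_sq_lower (j : ℕ) : 1 / (Real.pi * ((j : ℝ) + 1 / 2)) ≤ cc j ^ 2 := by
  have hW : ∀ j : ℕ, Real.Wallis.W j * (cc j ^ 2 * (2 * (j : ℝ) + 1)) = 1 := by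
    intro j
    induction j with
    | zero => simp [Real.Wallis.W, cc]
    | succ j ih =>
      rw [Real.Wallis.W_succ]
      have h := cc_succ j
      have hj : (0 : ℝ) ≤ j := Nat.cast_nonneg j
      have e : cc (j + 1) = (2 * (j : ℝ) + 1) / (2 * (j : ℝ) + 2) * cc j := by
        field_simp
        linear_combination h
      rw [e]
      push_cast
      have : Real.Wallis.W j * ((2 * (j : ℝ) + 2) / (2 * j + 1) * ((2 * j + 2) / (2 * j + 3))) *
          (((2 * (j : ℝ) + 1) / (2 * j + 2) * cc j) ^ 2 * (2 * (j + 1) + 1))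
          = Real.Wallis.W j * (cc j ^ 2 * (2 * (j : ℝ) + 1)) := by
        field_simp
        ring
      rw [this, ih]
  have h1 := hW j
  have h2 := Real.Wallis.W_le j
  have h3 := Real.Wallis.W_pos j
  have hj : (0 : ℝ) ≤ j := Nat.cast_nonneg j
  have hc := cc_pos j
  have hpi := Real.pi_pos
  rw [div_le_iff₀ (by positivity)]
  have h4 : Real.Wallis.W j * (cc j ^ 2 * (2 * (j : ℝ) + 1))
      ≤ Real.pi / 2 * (cc j ^ 2 * (2 * (j : ℝ) + 1)) :=
    mul_le_mul_of_nonneg_right h2 (by positivity)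
  rw [h1] at h4
  linarith

/-- expectation of `f (y + S_k)` for the simple random walk. -/
noncomputable def ek (f : ℤ → ℝ) : ℕ → ℤ → ℝ
  | 0, y => f y
  | (k + 1), y => (ek f k (y + 1) + ek f k (y - 1)) / 2

lemma wk_eq_ek (k : ℕ) : ∀ y : ℤ, wk k y = ek (fun y => |(y : ℝ)|) k y := by
  induction k with
  | zero => intro y; rfl
  | succ k ih => intro y; simp only [wk, ek, ih]

lemma ek_formula (f : ℤ → ℝ) (k : ℕ) : ∀ y : ℤ,
    ek f k y = (∑ i ∈ range (k + 1), (k.choose i : ℝ) * f (y + k - 2 * i)) / 2 ^ k := by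
  induction k with
  | zero => intro y; simp [ek]
  | succ k ih =>
    intro y
    simp only [ek, ih]
    have e1 : ∑ i ∈ range (k + 1 + 1), ((k + 1).choose i : ℝ) * f (y + ((k + 1 : ℕ) : ℤ) - 2 * i)
        = ∑ i ∈ range (k + 1), (k.choose i : ℝ) * f (y + 1 + k - 2 * i)
          + ∑ i ∈ range (k + 1), (k.choose i : ℝ) * f (y - 1 + k - 2 * i) := by
      rw [sum_range_succ']
      have h1 : ∀ i : ℕ, ((k + 1).choose (i + 1) : ℝ) * f (y + ((k + 1 : ℕ) : ℤ) - 2 * ((i + 1 : ℕ) : ℤ))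
          = (k.choose i : ℝ) * f (y - 1 + k - 2 * i)
            + (k.choose (i + 1) : ℝ) * f (y + 1 + k - 2 * ((i + 1 : ℕ) : ℤ)) := by
        intro i
        rw [Nat.choose_succ_succ]
        have a1 : y + ((k + 1 : ℕ) : ℤ) - 2 * ((i + 1 : ℕ) : ℤ) = y - 1 + k - 2 * i := by
          push_cast; ring
        have a2 : y + 1 + (k : ℤ) - 2 * ((i + 1 : ℕ) : ℤ) = y - 1 + k - 2 * i := by
          push_cast; ring
        rw [a1, a2]
        push_cast
        ring
      simp_rw [h1]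
      rw [sum_add_distrib]
      have h2 : ∑ i ∈ range (k + 1), (k.choose i : ℝ) * f (y + 1 + k - 2 * i)
          = ∑ i ∈ range (k + 1), (k.choose (i + 1) : ℝ) * f (y + 1 + k - 2 * ((i + 1 : ℕ) : ℤ))
            + ((k + 1).choose 0 : ℝ) * f (y + ((k + 1 : ℕ) : ℤ) - 2 * ((0 : ℕ) : ℤ)) := by
        have h3 := sum_range_succ' (fun i : ℕ => (k.choose i : ℝ) * f (y + 1 + k - 2 * (i : ℤ))) (k + 1)
        have h4 := sum_range_succ (fun i : ℕ => (k.choose i : ℝ) * f (y + 1 + k - 2 * (i : ℤ))) (k + 1)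
        rw [h3] at h4
        simp only [Nat.choose_succ_self, Nat.cast_zero, zero_mul, add_zero] at h4
        rw [← h4]
        congr 1
        have a3 : y + ((k + 1 : ℕ) : ℤ) - 2 * ((0 : ℕ) : ℤ) = y + 1 + k - 2 * ((0 : ℕ) : ℤ) := by
          push_cast; ring
        rw [a3]
        simp
      rw [h2]
      ring
    rw [e1, pow_succ]
    field_simp

lemma abs_tanaka (y : ℤ) :
    (|((y + 1 : ℤ) : ℝ)| + |((y - 1 : ℤ) : ℝ)|) / 2 = |(y : ℝ)| + if y = 0 then 1 else 0 := by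
  rcases lt_trichotomy y 0 with h | h | h
  · have h1 : ((y + 1 : ℤ) : ℝ) ≤ 0 := by exact_mod_cast (by omega : y + 1 ≤ 0)
    have h2 : ((y - 1 : ℤ) : ℝ) ≤ 0 := by exact_mod_cast (by omega : y - 1 ≤ 0)
    have h3 : (y : ℝ) ≤ 0 := by exact_mod_cast h.le
    rw [abs_of_nonpos h1, abs_of_nonpos h2, abs_of_nonpos h3, if_neg h.ne]
    push_cast
    ring
  · subst h
    norm_num
  · have h1 : 0 ≤ ((y + 1 : ℤ) : ℝ) := by exact_mod_cast (by omega : 0 ≤ y + 1)
    have h2 : 0 ≤ ((y - 1 : ℤ) : ℝ) := by exact_mod_cast (by omega : 0 ≤ y - 1)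
    have h3 : 0 ≤ (y : ℝ) := by exact_mod_cast h.le
    rw [abs_of_nonneg h1, abs_of_nonneg h2, abs_of_nonneg h3, if_neg h.ne']
    push_cast
    ring

lemma ek_tanaka (k : ℕ) : ∀ y : ℤ,
    ek (fun y => |(y : ℝ)|) (k + 1) y
      = ek (fun y => |(y : ℝ)|) k y + ek (fun y => if y = 0 then (1 : ℝ) else 0) k y := by
  induction k with
  | zero => intro y; simp only [ek]; exact abs_tanaka y
  | succ k ih =>
    intro y
    rw [ek, ih (y + 1), ih (y - 1)]
    simp only [ek]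
    ring

lemma ek_delta_even (l : ℕ) : ek (fun y => if y = 0 then (1 : ℝ) else 0) (2 * l) 0 = cc l := by
  rw [ek_formula]
  have : ∑ i ∈ range (2 * l + 1), ((2 * l).choose i : ℝ) *
      (if (0 : ℤ) + ((2 * l : ℕ) : ℤ) - 2 * (i : ℤ) = 0 then (1 : ℝ) else 0)
      = ((2 * l).choose l : ℝ) := by
    rw [sum_eq_single l]
    · rw [if_pos (by push_cast; ring), mul_one]
    · intro i _ hi
      rw [if_neg (by push_cast; omega), mul_zero]
    · intro h
      exact absurd (mem_range.2 (by omega)) h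
  rw [this, cc, Nat.centralBinom_eq_two_mul_choose, pow_mul]
  norm_num

lemma ek_delta_odd (l : ℕ) : ek (fun y => if y = 0 then (1 : ℝ) else 0) (2 * l + 1) 0 = 0 := by
  rw [ek_formula]
  have : ∑ i ∈ range (2 * l + 1 + 1), ((2 * l + 1).choose i : ℝ) *
      (if (0 : ℤ) + ((2 * l + 1 : ℕ) : ℤ) - 2 * (i : ℤ) = 0 then (1 : ℝ) else 0) = 0 := by
    refine sum_eq_zero fun i _ => ?_
    rw [if_neg (by push_cast; omega), mul_zero]
  rw [this, zero_div]

/-- `E|S_k| = k C(2j,j)/4^j` with `j = k/2` (floor). -/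
lemma wk_zero (k : ℕ) : wk k 0 = (k : ℝ) * cc (k / 2) := by
  induction k with
  | zero => simp [wk]
  | succ k ih =>
    rw [wk_eq_ek, ek_tanaka, ← wk_eq_ek, ih]
    rcases Nat.even_or_odd' k with ⟨l, hl | hl⟩
    · subst hl
      rw [ek_delta_even]
      have a1 : 2 * l / 2 = l := by omega
      have a2 : (2 * l + 1) / 2 = l := by omega
      rw [a1, a2]
      push_cast
      ring
    · subst hl
      rw [ek_delta_odd]
      have a1 : (2 * l + 1) / 2 = l := by omega
      have a2 : (2 * l + 1 + 1) / 2 = l + 1 := by omega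
      rw [a1, a2]
      have := cc_succ l
      push_cast
      linear_combination -this

end Vale.Agent.P047
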