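import Vale.Agent.P047.Beat.Build
import Vale.Agent.P047.Beat.Num2

namespace Vale.Agent.P047

open Finset

section general
variable {ι : Type} [Fintype ι] [DecidableEq ι]

lemma degree_le_card (f : (ι → Bool) → ℝ) : degree f ≤ Fintype.card ι := by
  apply degree_le_of_forall
  intro S hS
  have := Finset.card_le_univ S
  omega

lemma linSum_sub (f g : (ι → Bool) → ℝ) :
    linSum (fun x => f x - g x) = linSum f - linSum g := by
  unfold linSum
  rw [← Finset.sum_sub_distrib]
  apply Finset.sum_congr rfl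
  intro i _
  exact fourier_sub f g {i}

end general

/-- indicator of `x_0 = +1` on one bit. -/
def bp : (Fin 1 → Bool) → ℝ := subcube {0} ∅

/-- indicator of `x_0 = -1` on one bit. -/
def bm : (Fin 1 → Bool) → ℝ := subcube ∅ {0}

lemma bit_cases (x : Fin 1 → Bool) : (bp x = 1 ∧ bm x = 0) ∨ (bp x = 0 ∧ bm x = 1) := by
  unfold bp bm subcube
  cases h : x 0 <;> simp [h]

lemma mean_bp : fourier bp ∅ = 1 / 2 := by
  unfold bp
  rw [mean_subcube _ _ (by simp)]
  have : ((({0} : Finset (Fin 1)) ∪ ∅)ᶜ).card = 0 := by decide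
  rw [this]
  norm_num

lemma mean_bm : fourier bm ∅ = 1 / 2 := by
  unfold bm
  rw [mean_subcube _ _ (by simp)]
  have : (((∅ : Finset (Fin 1)) ∪ {0})ᶜ).card = 0 := by decide
  rw [this]
  norm_num

lemma linSum_bp : linSum bp = 1 / 2 := by
  unfold bp
  rw [linSum_subcube _ _ (by simp)]
  have : ((({0} : Finset (Fin 1)) ∪ ∅)ᶜ).card = 0 := by decide
  rw [this]
  norm_num

lemma linSum_bm : linSum bm = -(1 / 2) := by
  unfold bm
  rw [linSum_subcube _ _ (by simp)]
  have : (((∅ : Finset (Fin 1)) ∪ {0})ᶜ).card = 0 := by decide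
  rw [this]
  norm_num

/-- a family, indexed by the offset `y`, of Boolean functions of degree at most `k` on the same
variables; `v y` is the value of `E[f (y + sum of the variables)]`. -/
def Fam (ι : Type) [Fintype ι] [DecidableEq ι] (k : ℕ) (v : ℤ → ℝ) : Prop :=
  ∀ y : ℤ, ∃ f : (ι → Bool) → ℝ, IsBoolean f ∧ degree f ≤ k ∧ linSum f + y * fourier f ∅ = v y

section fam
variable {ι : Type} [Fintype ι] [DecidableEq ι]

lemma Fam.base : Fam ι 0 (fun y => |(y : ℝ)|) := by
  intro y
  refine ⟨fun _ => sg y, fun _ => sg_cases y, ?_, ?_⟩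
  · rw [degree_const]
  · rw [linSum_const, mean_const, zero_add]
    show (y : ℝ) * sg y = |(y : ℝ)|
    unfold sg
    split_ifs with h
    · rw [mul_one, abs_of_nonneg (by exact_mod_cast h)]
    · have : (y : ℝ) ≤ 0 := by exact_mod_cast (not_le.mp h).le
      rw [abs_of_nonpos this]
      ring

lemma Fam.step {k : ℕ} {v : ℤ → ℝ} (h : Fam ι k v) :
    Fam (Fin 1 ⊕ ι) (k + 1) (fun y => (v (y + 1) + v (y - 1)) / 2) := by
  intro y
  obtain ⟨f1, b1, d1, e1⟩ := h (y + 1)
  obtain ⟨f2, b2, d2, e2⟩ := h (y - 1)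
  refine ⟨fun x => tens bp f1 x + tens bm f2 x, ?_, ?_, ?_⟩
  · intro x
    simp only [tens]
    rcases bit_cases (fun a => x (Sum.inl a)) with ⟨h1, h2⟩ | ⟨h1, h2⟩
    · rw [h1, h2]
      simpa using b1 (fun b => x (Sum.inr b))
    · rw [h1, h2]
      simpa using b2 (fun b => x (Sum.inr b))
  · have c1 : degree bp ≤ 1 := by simpa using degree_le_card bp
    have c2 : degree bm ≤ 1 := by simpa using degree_le_card bm
    have a1 : degree (tens bp f1) ≤ k + 1 := by
      have := degree_tens_le bp f1 1 k c1 d1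
      omega
    have a2 : degree (tens bm f2) ≤ k + 1 := by
      have := degree_tens_le bm f2 1 k c2 d2
      omega
    exact degree_add_le (tens bp f1) (tens bm f2) _ a1 a2
  · rw [linSum_add (tens bp f1) (tens bm f2), fourier_add (tens bp f1) (tens bm f2),
      linSum_tens, linSum_tens, mean_tens, mean_tens, mean_bp, mean_bm, linSum_bp, linSum_bm]
    show _ = (v (y + 1) + v (y - 1)) / 2
    rw [← e1, ← e2]
    push_cast
    ring

lemma Fam.lift {k : ℕ} {v : ℤ → ℝ} (κ : Type) [Fintype κ] [DecidableEq κ] (h : Fam ι k v) :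
    Fam (κ ⊕ ι) k v := by
  intro y
  obtain ⟨f, b, d, e⟩ := h y
  refine ⟨tens (fun _ : κ → Bool => (1 : ℝ)) f, ?_, ?_, ?_⟩
  · intro x
    simp only [tens]
    simpa using b (fun b => x (Sum.inr b))
  · have := degree_tens_le (fun _ : κ → Bool => (1 : ℝ)) f 0 k (by rw [degree_const]) d
    omega
  · rw [linSum_tens, mean_tens, linSum_const, mean_const, ← e]
    ring

lemma Fam.modify {k : ℕ} {v : ℤ → ℝ} (h : Fam ι k v) (c : ℝ)
    (hc : ∃ f : (ι → Bool) → ℝ, IsBoolean f ∧ degree f ≤ k ∧ linSum f = c) :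
    Fam ι k (fun y => if y = 0 then c else v y) := by
  intro y
  by_cases hy : y = 0
  · obtain ⟨f, b, d, e⟩ := hc
    refine ⟨f, b, d, ?_⟩
    subst hy
    simp [e]
  · obtain ⟨f, b, d, e⟩ := h y
    refine ⟨f, b, d, ?_⟩
    simp [hy, e]

end fam

lemma Fam.iter (m : ℕ) : ∀ (ι : Type) [Fintype ι] [DecidableEq ι] (k : ℕ) (v : ℤ → ℝ), Fam ι k v →
    ∃ (ι' : Type) (_ : Fintype ι') (_ : DecidableEq ι'), Fam ι' (k + m) (ek v m) := by
  induction m with
  | zero =>
    intro ι _ _ k v h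
    exact ⟨ι, inferInstance, inferInstance, h⟩
  | succ m ih =>
    intro ι _ _ k v h
    obtain ⟨ι', hF, hD, h'⟩ := ih ι k v h
    exact ⟨Fin 1 ⊕ ι', inferInstance, inferInstance, h'.step⟩

/-- the ten-bit function of degree five with linear sum `17/8`. -/
lemma exists_f5 : ∃ f : (Fin 1 ⊕ Fin 9 → Bool) → ℝ, IsBoolean f ∧ degree f ≤ 5 ∧ linSum f = 17 / 8 := by
  let z : (Fin 1 → Bool) → ℝ := fun x => bp x - bm x
  have hz : linSum z = 1 := by
    have := linSum_sub bp bm
    rw [linSum_bp, linSum_bm] at this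
    rw [this]; norm_num
  have dz : degree z ≤ 1 := by simpa using degree_le_card z
  let c1 : (Fin 1 → Bool) → ℝ := fun _ => 1
  let c2 : (Fin 1 → Bool) → ℝ := fun _ => -1
  refine ⟨fun x => (tens c1 gp x + tens c2 gm x) + tens z g0 x, ?_, ?_, ?_⟩
  · intro x
    simp only [tens, c1, c2, z]
    rcases gadget_cases (fun a => x (Sum.inr a)) with ⟨h1, h2, h3⟩ | ⟨h1, h2, h3⟩ | ⟨h1, h2, h3⟩
    · rw [h1, h2, h3]; left; norm_num
    · rw [h1, h2, h3]; right; norm_num
    · rw [h1, h2, h3]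
      rcases bit_cases (fun a => x (Sum.inl a)) with ⟨k1, k2⟩ | ⟨k1, k2⟩
      · rw [k1, k2]; left; norm_num
      · rw [k1, k2]; right; norm_num
  · have e1 : degree (tens c1 gp) ≤ 5 := by
      have := degree_tens_le c1 gp 0 5 (by rw [degree_const]) degree_gp
      omega
    have e2 : degree (tens c2 gm) ≤ 5 := by
      have := degree_tens_le c2 gm 0 5 (by rw [degree_const]) degree_gm
      omega
    have e3 : degree (tens z g0) ≤ 5 := by
      have := degree_tens_le z g0 1 4 dz degree_g0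
      omega
    exact degree_add_le (fun x => tens c1 gp x + tens c2 gm x) (tens z g0) _
      (degree_add_le (tens c1 gp) (tens c2 gm) _ e1 e2) e3
  · rw [linSum_add (fun x => tens c1 gp x + tens c2 gm x) (tens z g0),
      linSum_add (tens c1 gp) (tens c2 gm), linSum_tens, linSum_tens, linSum_tens,
      mean_gp, mean_gm, mean_g0, linSum_gp, linSum_gm, linSum_g0, hz]
    simp only [c1, c2]
    rw [linSum_const, linSum_const, mean_const, mean_const]
    norm_num

lemma ek_lin (f g : ℤ → ℝ) (c : ℝ) (k : ℕ) : ∀ y : ℤ,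
    ek (fun y => f y + c * g y) k y = ek f k y + c * ek g k y := by
  induction k with
  | zero => intro y; rfl
  | succ k ih =>
    intro y
    simp only [ek, ih]
    ring

lemma ek_wk (j m : ℕ) : ∀ y : ℤ, ek (wk j) m y = wk (j + m) y := by
  induction m with
  | zero => intro y; rfl
  | succ m ih =>
    intro y
    simp only [ek, ih]
    rfl

/-- odd degrees: a Boolean function of degree at most `2 l + 5` whose linear sum exceeds
`E|S_(2l+5)|` by `C(2l,l)/4^(l+1)`. -/
lemma exists_odd (l : ℕ) : ∃ (n : ℕ) (f : (Fin n → Bool) → ℝ),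
    IsBoolean f ∧ degree f ≤ 2 * l + 5 ∧ linSum f = wk (2 * l + 5) 0 + cc l / 4 := by
  obtain ⟨f5, b5, d5, l5⟩ := exists_f5
  obtain ⟨A, _, _, hA⟩ := Fam.iter 5 Empty 0 _ Fam.base
  have hL := hA.lift (Fin 1 ⊕ Fin 9)
  have hM := hL.modify (17 / 8) ⟨tens f5 (fun _ : A → Bool => (1 : ℝ)), by
      intro x
      simp only [tens]
      simpa using b5 (fun a => x (Sum.inl a)), by
      have := degree_tens_le f5 (fun _ : A → Bool => (1 : ℝ)) 5 0 d5 (by rw [degree_const])
      omega, by
      rw [linSum_tens, linSum_const, mean_const, l5]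
      ring⟩
  obtain ⟨B, _, _, hB⟩ := Fam.iter (2 * l) _ _ _ hM
  obtain ⟨f, b, d, e⟩ := hB 0
  obtain ⟨n, g, h1, h2, h3⟩ := exists_fin_reindex f
  refine ⟨n, g, h1 b, by rw [h2]; omega, ?_⟩
  rw [h3]
  have hw5 : wk 5 0 = 15 / 8 := by
    rw [wk_zero]
    have : (5 : ℕ) / 2 = 2 := by norm_num
    rw [this]
    unfold cc
    have : Nat.centralBinom 2 = 6 := by decide
    rw [this]
    norm_num
  have hv : (fun y : ℤ => if y = 0 then (17 / 8 : ℝ) else ek (fun y => |(y : ℝ)|) 5 y)
      = fun y => wk 5 y + (1 / 4) * (if y = 0 then (1 : ℝ) else 0) := by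
    funext y
    by_cases hy : y = 0
    · subst hy
      rw [if_pos rfl, if_pos rfl, hw5]
      norm_num
    · rw [if_neg hy, if_neg hy, wk_eq_ek]
      ring
  rw [hv, ek_lin, ek_wk, ek_delta_even] at e
  have e' : linSum f = wk (5 + 2 * l) 0 + 1 / 4 * cc l := by
    simpa using e
  rw [e', add_comm 5 (2 * l)]
  ring

end Vale.Agent.P047
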