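import Vale.Agent.P047.Beat.AllDeg

namespace Vale.Agent.P047

open Finset

lemma wk_eq_cube (k : ℕ) : ∀ y : ℤ,
    wk k y = (∑ x : Fin k → Bool, |(y : ℝ) + ∑ i, sgn (x i)|) / 2 ^ k := by
  induction k with
  | zero => intro y; simp [wk]
  | succ k ih =>
    intro y
    have h : ∑ x : Fin (k + 1) → Bool, |(y : ℝ) + ∑ i, sgn (x i)|
        = ∑ x : Fin k → Bool, |((y + 1 : ℤ) : ℝ) + ∑ i, sgn (x i)|
          + ∑ x : Fin k → Bool, |((y - 1 : ℤ) : ℝ) + ∑ i, sgn (x i)| := by
      rw [← (Fin.consEquiv (fun _ : Fin (k + 1) => Bool)).sum_comp, Fintype.sum_prod_type, Fintype.sum_bool]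
      congr 1
      · apply Finset.sum_congr rfl
        intro x _
        rw [Fin.sum_univ_succ]
        simp [sgn]
        congr 1
        ring
      · apply Finset.sum_congr rfl
        intro x _
        rw [Fin.sum_univ_succ]
        simp [sgn]
        congr 1
        ring
    simp only [wk]
    rw [ih, ih, h, pow_succ]
    field_simp

lemma wk_even_eq (l : ℕ) : wk (2 * l + 6) 0 = wk (2 * l + 5) 0 := by
  rw [wk_zero, wk_zero]
  have a1 : (2 * l + 6) / 2 = (l + 2) + 1 := by omega
  have a2 : (2 * l + 5) / 2 = l + 2 := by omega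
  rw [a1, a2]
  have := cc_succ (l + 2)
  push_cast at this ⊢
  linear_combination this

/-- for every degree `d ≥ 5` some Boolean function of degree at most `d` has a larger sum of linear
coefficients than Majority on `d` bits. -/
lemma beats_all_ge5 (d : ℕ) (hd : 5 ≤ d) : ∃ (n : ℕ) (f : (Fin n → Bool) → ℝ),
    IsBoolean f ∧ degree f ≤ d ∧
      (∑ x : Fin d → Bool, |∑ i, sgn (x i)|) / 2 ^ d < ∑ i, fourier f {i} := by
  have hB : (∑ x : Fin d → Bool, |∑ i, sgn (x i)|) / 2 ^ d = wk d 0 := by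
    rw [wk_eq_cube]
    simp
  rw [hB]
  rcases Nat.even_or_odd' (d - 5) with ⟨l, hl | hl⟩
  · obtain ⟨n, f, b, dg, e⟩ := exists_odd l
    have hd' : d = 2 * l + 5 := by omega
    refine ⟨n, f, b, by omega, ?_⟩
    have : linSum f = ∑ i, fourier f {i} := rfl
    rw [← this, e, hd']
    have := cc_pos l
    linarith
  · obtain ⟨n, f, b, dg, e⟩ := exists_odd l
    have hd' : d = 2 * l + 6 := by omega
    refine ⟨n, f, b, by omega, ?_⟩
    have : linSum f = ∑ i, fourier f {i} := rfl
    rw [← this, e, hd', wk_even_eq]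
    have := cc_pos l
    linarith

end Vale.Agent.P047
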