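import Vale.Agent.P047.Basic

namespace Vale.Agent.P047

open Finset

section general
variable {ι : Type} [Fintype ι] [DecidableEq ι]

lemma subcube_cases (P N : Finset ι) (x : ι → Bool) : subcube P N x = 1 ∨ subcube P N x = 0 := by
  unfold subcube
  split_ifs
  · exact Or.inl rfl
  · exact Or.inr rfl

lemma subcube_mul_eq_zero (P N P' N' : Finset ι) (x : ι → Bool)
    (h : (P ∩ N').Nonempty ∨ (N ∩ P').Nonempty) : subcube P N x * subcube P' N' x = 0 := by
  unfold subcube
  split_ifs with h1 h2
  · exfalso
    rcases h with ⟨i, hi⟩ | ⟨i, hi⟩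
    · rw [Finset.mem_inter] at hi
      have a := h1.1 i hi.1
      have b := h2.2 i hi.2
      rw [a] at b
      exact Bool.noConfusion b
    · rw [Finset.mem_inter] at hi
      have a := h1.2 i hi.1
      have b := h2.1 i hi.2
      rw [a] at b
      exact Bool.noConfusion b
  · simp
  · simp
  · simp

lemma fourier_finset_sum {κ : Type} (T : Finset κ) (u : κ → (ι → Bool) → ℝ) (S : Finset ι) :
    fourier (fun x => ∑ j ∈ T, u j x) S = ∑ j ∈ T, fourier (u j) S := by
  unfold fourier
  rw [← Finset.sum_div]
  congr 1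
  simp_rw [Finset.sum_mul]
  rw [Finset.sum_comm]

lemma fourier_subcube_eq_zero (P N S : Finset ι) (hPN : Disjoint P N)
    (h : (P ∪ N).card < S.card) : fourier (subcube P N) S = 0 := by
  unfold fourier
  rw [sum_subcube_chi_eq_zero P N S hPN, zero_div]
  intro hs
  have := Finset.card_le_card hs
  omega

lemma mean_subcube (P N : Finset ι) (hPN : Disjoint P N) :
    fourier (subcube P N) ∅ = 2 ^ ((P ∪ N)ᶜ).card / 2 ^ Fintype.card ι := by
  unfold fourier
  congr 1
  have h := sum_subcube_tilt P N hPN 0
  simpa [chi] using h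

lemma linSum_subcube (P N : Finset ι) (hPN : Disjoint P N) :
    linSum (subcube P N) =
      ((P.card : ℝ) - N.card) * 2 ^ ((P ∪ N)ᶜ).card / 2 ^ Fintype.card ι := by
  unfold linSum fourier
  rw [← Finset.sum_div]
  congr 1
  have h : ∀ i : ι, ∑ x : ι → Bool, subcube P N x * chi {i} x =
      ((if i ∈ P then 1 else 0) - (if i ∈ N then 1 else 0)) * 2 ^ ((P ∪ N)ᶜ).card := by
    intro i
    rw [← sum_subcube_sgn P N hPN i]
    apply Finset.sum_congr rfl
    intro x _
    simp [chi]
  simp_rw [h]
  rw [← Finset.sum_mul]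
  congr 1
  rw [Finset.sum_sub_distrib]
  simp

lemma linSum_finset_sum {κ : Type} (T : Finset κ) (u : κ → (ι → Bool) → ℝ) :
    linSum (fun x => ∑ j ∈ T, u j x) = ∑ j ∈ T, linSum (u j) := by
  unfold linSum
  simp_rw [fourier_finset_sum]
  rw [Finset.sum_comm]

lemma sgn_not (b : Bool) : sgn (!b) = - sgn b := by
  cases b <;> simp [sgn]

omit [Fintype ι] [DecidableEq ι] in
lemma chi_not (S : Finset ι) (x : ι → Bool) :
    chi S (fun i => !x i) = (-1) ^ S.card * chi S x := by
  unfold chi
  simp_rw [sgn_not]
  rw [← Finset.prod_const, ← Finset.prod_mul_distrib]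
  apply Finset.prod_congr rfl
  intro i _
  ring

lemma fourier_not (f : (ι → Bool) → ℝ) (S : Finset ι) :
    fourier (fun x => f (fun i => !x i)) S = (-1) ^ S.card * fourier f S := by
  unfold fourier
  rw [← mul_div_assoc]
  congr 1
  have hinv : Function.Involutive (fun x : ι → Bool => fun i => !x i) := by
    intro x
    funext i
    simp
  rw [← Equiv.sum_comp hinv.toPerm (fun x => f x * chi S x), Finset.mul_sum]
  apply Finset.sum_congr rfl
  intro x _
  simp only [Function.Involutive.coe_toPerm]
  rw [chi_not]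
  have h1 : ((-1 : ℝ) ^ S.card) * ((-1 : ℝ) ^ S.card) = 1 := by
    rw [← mul_pow]
    simp
  calc (f fun i => !x i) * chi S x
      = (f fun i => !x i) * chi S x * (((-1 : ℝ) ^ S.card) * ((-1 : ℝ) ^ S.card)) := by
        rw [h1, mul_one]
    _ = (-1) ^ S.card * ((f fun i => !x i) * ((-1) ^ S.card * chi S x)) := by ring

lemma fourier_one_eq_zero (S : Finset ι) (hS : S.Nonempty) :
    fourier (fun _ : ι → Bool => (1 : ℝ)) S = 0 := by
  unfold fourier
  simp only [one_mul]
  rw [sum_chi_eq_zero S hS, zero_div]

lemma fourier_sub (f g : (ι → Bool) → ℝ) (S : Finset ι) :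
    fourier (fun x => f x - g x) S = fourier f S - fourier g S := by
  unfold fourier
  rw [← sub_div]
  congr 1
  rw [← Finset.sum_sub_distrib]
  apply Finset.sum_congr rfl
  intro x _
  ring

end general

/-- out-neighbourhood of `j` in the rotational tournament on `Z_9` with connection set `{1,2,4,6}`. -/
def gP (j : Fin 9) : Finset (Fin 9) := {j + 1, j + 2, j + 4, j + 6}

/-- indicator of the event: some `j` has `x_j = -1` and `x_i = +1` for all `i` in `gP j`. -/
def gp (x : Fin 9 → Bool) : ℝ := ∑ j : Fin 9, subcube (gP j) {j} x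

/-- the antipodal event. -/
def gm (x : Fin 9 → Bool) : ℝ := ∑ j : Fin 9, subcube {j} (gP j) x

/-- indicator of the remaining inputs. -/
def g0 (x : Fin 9 → Bool) : ℝ := 1 - gp x - gm x

lemma gP_tournament : ∀ j k : Fin 9, j ≠ k → (gP j ∩ {k}).Nonempty ∨ ({j} ∩ gP k).Nonempty := by
  decide

lemma gP_common : ∀ j k : Fin 9, (gP j ∩ gP k).Nonempty := by
  decide

lemma gP_disj : ∀ j : Fin 9, Disjoint (gP j) {j} := by
  decide

lemma gP_card : ∀ j : Fin 9, (gP j).card = 4 := by
  decide

lemma gP_union_card : ∀ j : Fin 9, (gP j ∪ {j}).card = 5 := by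
  decide

lemma gP_compl_card : ∀ j : Fin 9, ((gP j ∪ {j})ᶜ).card = 4 := by
  decide

lemma gadget_cases (x : Fin 9 → Bool) :
    (gp x = 1 ∧ gm x = 0 ∧ g0 x = 0) ∨ (gp x = 0 ∧ gm x = 1 ∧ g0 x = 0) ∨
      (gp x = 0 ∧ gm x = 0 ∧ g0 x = 1) := by
  by_cases hp : ∃ j, subcube (gP j) {j} x = 1
  · obtain ⟨j, hj⟩ := hp
    have h1 : gp x = 1 := by
      unfold gp
      rw [Finset.sum_eq_single j, hj]
      · intro k _ hk
        have := subcube_mul_eq_zero (gP j) {j} (gP k) {k} x (gP_tournament j k (Ne.symm hk))
        rw [hj, one_mul] at this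
        exact this
      · intro h
        exact absurd (mem_univ j) h
    have h2 : gm x = 0 := by
      unfold gm
      apply Finset.sum_eq_zero
      intro k _
      have := subcube_mul_eq_zero (gP j) {j} {k} (gP k) x (Or.inl (gP_common j k))
      rw [hj, one_mul] at this
      exact this
    left
    refine ⟨h1, h2, ?_⟩
    unfold g0
    rw [h1, h2]
    ring
  · have h1 : gp x = 0 := by
      unfold gp
      apply Finset.sum_eq_zero
      intro k _
      rcases subcube_cases (gP k) {k} x with h | h
      · exact absurd ⟨k, h⟩ hp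
      · exact h
    by_cases hm : ∃ j, subcube {j} (gP j) x = 1
    · obtain ⟨j, hj⟩ := hm
      have h2 : gm x = 1 := by
        unfold gm
        rw [Finset.sum_eq_single j, hj]
        · intro k _ hk
          have hc : (({j} : Finset (Fin 9)) ∩ gP k).Nonempty ∨ (gP j ∩ {k}).Nonempty :=
            (gP_tournament j k (Ne.symm hk)).symm
          have := subcube_mul_eq_zero {j} (gP j) {k} (gP k) x hc
          rw [hj, one_mul] at this
          exact this
        · intro h
          exact absurd (mem_univ j) h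
      right; left
      refine ⟨h1, h2, ?_⟩
      unfold g0
      rw [h1, h2]
      ring
    · have h2 : gm x = 0 := by
        unfold gm
        apply Finset.sum_eq_zero
        intro k _
        rcases subcube_cases {k} (gP k) x with h | h
        · exact absurd ⟨k, h⟩ hm
        · exact h
      right; right
      refine ⟨h1, h2, ?_⟩
      unfold g0
      rw [h1, h2]
      ring

lemma fourier_gp_eq_zero (S : Finset (Fin 9)) (h : 5 < S.card) : fourier gp S = 0 := by
  unfold gp
  rw [fourier_finset_sum]
  apply Finset.sum_eq_zero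
  intro j _
  apply fourier_subcube_eq_zero _ _ _ (gP_disj j)
  rw [gP_union_card]
  exact h

lemma degree_gp : degree gp ≤ 5 :=
  degree_le_of_forall gp 5 fourier_gp_eq_zero

lemma gm_eq (x : Fin 9 → Bool) : gm x = gp (fun i => !x i) := by
  unfold gm gp
  apply Finset.sum_congr rfl
  intro j _
  unfold subcube
  congr 1
  simp [and_comm]

lemma fourier_gm (S : Finset (Fin 9)) : fourier gm S = (-1) ^ S.card * fourier gp S := by
  rw [← fourier_not]
  congr 1
  funext x
  exact gm_eq x

lemma degree_gm : degree gm ≤ 5 := by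
  apply degree_le_of_forall
  intro S h
  rw [fourier_gm, fourier_gp_eq_zero S h, mul_zero]

lemma fourier_g0 (S : Finset (Fin 9)) :
    fourier g0 S = fourier (fun _ : Fin 9 → Bool => (1 : ℝ)) S - fourier gp S - fourier gm S := by
  unfold g0
  rw [fourier_sub (fun x => 1 - gp x) gm, fourier_sub (fun _ => (1 : ℝ)) gp]

lemma degree_g0 : degree g0 ≤ 4 := by
  apply degree_le_of_forall
  intro S h
  have hne : S.Nonempty := by
    rw [← Finset.card_pos]
    omega
  rw [fourier_g0, fourier_one_eq_zero S hne, fourier_gm]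
  rcases Nat.lt_or_ge 5 S.card with h5 | h5
  · rw [fourier_gp_eq_zero S h5]
    ring
  · have : S.card = 5 := by omega
    rw [this]
    ring

lemma mean_gp : fourier gp ∅ = 9 / 32 := by
  unfold gp
  rw [fourier_finset_sum]
  have : ∀ j ∈ (univ : Finset (Fin 9)), fourier (subcube (gP j) {j}) ∅ = 1 / 32 := by
    intro j _
    rw [mean_subcube _ _ (gP_disj j), gP_compl_card]
    simp
    norm_num
  rw [Finset.sum_congr rfl this]
  simp
  norm_num

lemma mean_gm : fourier gm ∅ = 9 / 32 := by
  rw [fourier_gm, mean_gp]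
  simp

lemma mean_g0 : fourier g0 ∅ = 14 / 32 := by
  rw [fourier_g0, mean_gp, mean_gm]
  have : fourier (fun _ : Fin 9 → Bool => (1 : ℝ)) ∅ = 1 := by
    unfold fourier
    simp [chi]
    norm_num
  rw [this]
  norm_num

lemma linSum_gp : linSum gp = 27 / 32 := by
  unfold gp
  rw [linSum_finset_sum]
  have : ∀ j ∈ (univ : Finset (Fin 9)), linSum (subcube (gP j) {j}) = 3 / 32 := by
    intro j _
    rw [linSum_subcube _ _ (gP_disj j), gP_compl_card, gP_card]
    simp
    norm_num
  rw [Finset.sum_congr rfl this]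
  simp
  norm_num

lemma linSum_gm : linSum gm = -(27 / 32) := by
  have h : linSum gm = - linSum gp := by
    unfold linSum
    rw [← Finset.sum_neg_distrib]
    apply Finset.sum_congr rfl
    intro i _
    rw [fourier_gm]
    simp
  rw [h, linSum_gp]

lemma linSum_g0 : linSum g0 = 0 := by
  have h : linSum g0 = - linSum gp - linSum gm := by
    unfold linSum
    rw [← Finset.sum_neg_distrib, ← Finset.sum_sub_distrib]
    apply Finset.sum_congr rfl
    intro i _
    rw [fourier_g0, fourier_one_eq_zero {i} (Finset.singleton_nonempty i)]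
    ring
  rw [h, linSum_gp, linSum_gm]
  ring

end Vale.Agent.P047
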