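import Vale.Agent.P047.Basic

namespace Vale.Agent.P047

open Finset

section
variable {α β : Type} [Fintype α] [DecidableEq α] [Fintype β] [DecidableEq β]

/-- product of a function of the left block and a function of the right block. -/
def tens (u : (α → Bool) → ℝ) (v : (β → Bool) → ℝ) : (α ⊕ β → Bool) → ℝ :=
  fun x => u (fun a => x (Sum.inl a)) * v (fun b => x (Sum.inr b))

omit [Fintype α] [DecidableEq α] [Fintype β] [DecidableEq β] in
lemma chi_sum (S : Finset (α ⊕ β)) (x : α ⊕ β → Bool) :
    chi S x = chi S.toLeft (fun a => x (Sum.inl a)) * chi S.toRight (fun b => x (Sum.inr b)) := by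
  unfold chi
  conv_lhs => rw [← Finset.toLeft_disjSum_toRight (u := S)]
  rw [Finset.prod_disjSum]

lemma fourier_tens (u : (α → Bool) → ℝ) (v : (β → Bool) → ℝ) (S : Finset (α ⊕ β)) :
    fourier (tens u v) S = fourier u S.toLeft * fourier v S.toRight := by
  unfold fourier
  have h1 : ∑ x : α ⊕ β → Bool, tens u v x * chi S x =
      (∑ y : α → Bool, u y * chi S.toLeft y) * (∑ z : β → Bool, v z * chi S.toRight z) := by
    rw [Finset.sum_mul_sum, ← Finset.sum_product']
    refine Fintype.sum_equiv (Equiv.sumArrowEquivProdArrow α β Bool) _ _ ?_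
    intro x
    rw [chi_sum]
    simp only [tens, Equiv.sumArrowEquivProdArrow]
    simp only [Equiv.coe_fn_mk, Function.comp_def]
    ring
  rw [h1, Fintype.card_sum, pow_add]
  field_simp

lemma degree_tens_le (u : (α → Bool) → ℝ) (v : (β → Bool) → ℝ) (a b : ℕ)
    (hu : degree u ≤ a) (hv : degree v ≤ b) : degree (tens u v) ≤ a + b := by
  apply degree_le_of_forall
  intro S hS
  rw [fourier_tens]
  have hc : S.toLeft.card + S.toRight.card = S.card := Finset.card_toLeft_add_card_toRight
  by_cases h : a < S.toLeft.card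
  · rw [fourier_eq_zero_of_degree_lt u _ (lt_of_le_of_lt hu h), zero_mul]
  · have h2 : b < S.toRight.card := by omega
    rw [fourier_eq_zero_of_degree_lt v _ (lt_of_le_of_lt hv h2), mul_zero]

lemma mean_tens (u : (α → Bool) → ℝ) (v : (β → Bool) → ℝ) :
    fourier (tens u v) ∅ = fourier u ∅ * fourier v ∅ := by
  rw [fourier_tens]
  have e1 : (∅ : Finset (α ⊕ β)).toLeft = ∅ := by ext i; simp
  have e2 : (∅ : Finset (α ⊕ β)).toRight = ∅ := by ext i; simp
  rw [e1, e2]

lemma linSum_tens (u : (α → Bool) → ℝ) (v : (β → Bool) → ℝ) :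
    linSum (tens u v) = linSum u * fourier v ∅ + fourier u ∅ * linSum v := by
  unfold linSum
  rw [Fintype.sum_sum_type, Finset.sum_mul, Finset.mul_sum]
  congr 1
  · apply Finset.sum_congr rfl
    intro a _
    rw [fourier_tens]
    have e1 : ({Sum.inl a} : Finset (α ⊕ β)).toLeft = {a} := by ext i; simp
    have e2 : ({Sum.inl a} : Finset (α ⊕ β)).toRight = ∅ := by ext i; simp
    rw [e1, e2]
  · apply Finset.sum_congr rfl
    intro b _
    rw [fourier_tens]
    have e1 : ({Sum.inr b} : Finset (α ⊕ β)).toLeft = ∅ := by ext i; simp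
    have e2 : ({Sum.inr b} : Finset (α ⊕ β)).toRight = {b} := by ext i; simp
    rw [e1, e2]

lemma fourier_add (f g : (α → Bool) → ℝ) (S : Finset α) :
    fourier (fun x => f x + g x) S = fourier f S + fourier g S := by
  unfold fourier
  rw [← add_div, ← Finset.sum_add_distrib]
  congr 1
  apply Finset.sum_congr rfl
  intro x _
  ring

lemma degree_add_le (f g : (α → Bool) → ℝ) (d : ℕ) (hf : degree f ≤ d) (hg : degree g ≤ d) :
    degree (fun x => f x + g x) ≤ d := by
  apply degree_le_of_forall
  intro S hS
  rw [fourier_add, fourier_eq_zero_of_degree_lt f _ (lt_of_le_of_lt hf hS),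
    fourier_eq_zero_of_degree_lt g _ (lt_of_le_of_lt hg hS), add_zero]

lemma linSum_add (f g : (α → Bool) → ℝ) :
    linSum (fun x => f x + g x) = linSum f + linSum g := by
  unfold linSum
  rw [← Finset.sum_add_distrib]
  apply Finset.sum_congr rfl
  intro i _
  rw [fourier_add]

lemma mean_const (c : ℝ) : fourier (fun _ : α → Bool => c) ∅ = c := by
  unfold fourier chi
  simp only [Finset.prod_empty, mul_one, Finset.sum_const, Finset.card_univ, Fintype.card_fun,
    Fintype.card_bool, nsmul_eq_mul]
  push_cast
  field_simp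

lemma fourier_const_of_nonempty (c : ℝ) (S : Finset α) (hS : S.Nonempty) :
    fourier (fun _ : α → Bool => c) S = 0 := by
  unfold fourier
  rw [← Finset.mul_sum, sum_chi_eq_zero S hS, mul_zero, zero_div]

lemma degree_const (c : ℝ) : degree (fun _ : α → Bool => c) = 0 := by
  apply Nat.le_zero.mp
  apply degree_le_of_forall
  intro S hS
  exact fourier_const_of_nonempty c S (Finset.card_pos.mp hS)

lemma linSum_const (c : ℝ) : linSum (fun _ : α → Bool => c) = 0 := by
  unfold linSum
  apply Finset.sum_eq_zero
  intro i _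
  exact fourier_const_of_nonempty c {i} (Finset.singleton_nonempty i)

lemma fourier_reindex {γ : Type} [Fintype γ] [DecidableEq γ] (e : α ≃ γ)
    (f : (α → Bool) → ℝ) (S : Finset α) :
    fourier (fun y : γ → Bool => f (fun a => y (e a))) (S.map e.toEmbedding) = fourier f S := by
  unfold fourier
  rw [Fintype.card_congr e]
  congr 1
  symm
  refine Fintype.sum_equiv (Equiv.arrowCongr e (Equiv.refl Bool)) _ _ ?_
  intro x
  unfold chi
  rw [Finset.prod_map]
  simp [Equiv.arrowCongr]

/-- transport to the standard index type `Fin n`. -/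
lemma exists_fin_reindex (f : (α → Bool) → ℝ) :
    ∃ (n : ℕ) (g : (Fin n → Bool) → ℝ),
      (IsBoolean f → IsBoolean g) ∧ degree g = degree f ∧ linSum g = linSum f := by
  let e : α ≃ Fin (Fintype.card α) := Fintype.equivFin α
  refine ⟨Fintype.card α, fun y => f (fun a => y (e a)), ?_, ?_, ?_⟩
  · intro h y
    exact h _
  · apply le_antisymm
    · apply degree_le_of_forall
      intro T hT
      have hT' : T = (T.map e.symm.toEmbedding).map e.toEmbedding := by
        ext i; simp
      rw [hT', fourier_reindex e f]
      apply fourier_eq_zero_of_degree_lt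
      rw [Finset.card_map]; exact hT
    · apply degree_le_of_forall
      intro S hS
      rw [← fourier_reindex e f S]
      apply fourier_eq_zero_of_degree_lt
      rw [Finset.card_map]; exact hS
  · unfold linSum
    rw [← Equiv.sum_comp e]
    apply Finset.sum_congr rfl
    intro a _
    rw [← fourier_reindex e f {a}, Finset.map_singleton]
    rfl

end

end Vale.Agent.P047
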