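import Vale.Agent.P047.Beat.Defs
import Vale.Agent.P047.Beat.Tensor
import Vale.Agent.P047.Beat.Gadget

namespace Vale.Agent.P047

open Finset

lemma sg_cases (y : ℤ) : sg y = 1 ∨ sg y = -1 := by
  unfold sg
  split_ifs
  · exact Or.inl rfl
  · exact Or.inr rfl

/-- `M` gadgets on disjoint blocks: for every quota `k` and offset `y` a Boolean function of degree
at most `4 M + k` with mean `aM M k y` and linear sum `lM M k y`. -/
lemma build (M : ℕ) : ∃ (ι : Type) (_ : Fintype ι) (_ : DecidableEq ι), ∀ (k : ℕ) (y : ℤ),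
    ∃ f : (ι → Bool) → ℝ, IsBoolean f ∧ degree f ≤ 4 * M + k ∧ fourier f ∅ = aM M k y ∧
      linSum f = lM M k y := by
  induction M with
  | zero =>
    refine ⟨Empty, inferInstance, inferInstance, fun k y => ⟨fun _ => sg y, ?_, ?_, ?_, ?_⟩⟩
    · intro x
      exact sg_cases y
    · rw [degree_const]
      omega
    · rw [mean_const]
      simp [aM]
    · rw [linSum_const]
      simp [lM]
  | succ M ih =>
    obtain ⟨ι, hF, hD, h⟩ := ih
    refine ⟨Fin 9 ⊕ ι, inferInstance, inferInstance, fun k y => ?_⟩
    cases k with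
    | zero =>
      refine ⟨fun _ => sg y, ?_, ?_, ?_, ?_⟩
      · intro x
        exact sg_cases y
      · rw [degree_const]
        omega
      · rw [mean_const]
        simp [aM]
      · rw [linSum_const]
        simp [lM]
    | succ k =>
      obtain ⟨f1, b1, d1, m1, l1⟩ := h k (y + 1)
      obtain ⟨f2, b2, d2, m2, l2⟩ := h k (y - 1)
      obtain ⟨f3, b3, d3, m3, l3⟩ := h (k + 1) y
      refine ⟨fun x => (tens gp f1 x + tens gm f2 x) + tens g0 f3 x, ?_, ?_, ?_, ?_⟩
      · intro x
        simp only [tens]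
        rcases gadget_cases (fun a => x (Sum.inl a)) with ⟨h1, h2, h3⟩ | ⟨h1, h2, h3⟩ | ⟨h1, h2, h3⟩
        · rw [h1, h2, h3]
          simpa using b1 (fun b => x (Sum.inr b))
        · rw [h1, h2, h3]
          simpa using b2 (fun b => x (Sum.inr b))
        · rw [h1, h2, h3]
          simpa using b3 (fun b => x (Sum.inr b))
      · have e1 : degree (tens gp f1) ≤ 4 * (M + 1) + (k + 1) := by
          have := degree_tens_le gp f1 5 (4 * M + k) degree_gp d1
          omega
        have e2 : degree (tens gm f2) ≤ 4 * (M + 1) + (k + 1) := by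
          have := degree_tens_le gm f2 5 (4 * M + k) degree_gm d2
          omega
        have e3 : degree (tens g0 f3) ≤ 4 * (M + 1) + (k + 1) := by
          have := degree_tens_le g0 f3 4 (4 * M + (k + 1)) degree_g0 d3
          omega
        exact degree_add_le (fun x => tens gp f1 x + tens gm f2 x) (tens g0 f3) _
          (degree_add_le (tens gp f1) (tens gm f2) _ e1 e2) e3
      · rw [fourier_add (fun x => tens gp f1 x + tens gm f2 x) (tens g0 f3),
          fourier_add (tens gp f1) (tens gm f2), mean_tens, mean_tens, mean_tens,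
          mean_gp, mean_gm, mean_g0, m1, m2, m3]
        simp only [aM]
        ring
      · rw [linSum_add (fun x => tens gp f1 x + tens gm f2 x) (tens g0 f3),
          linSum_add (tens gp f1) (tens gm f2), linSum_tens, linSum_tens, linSum_tens,
          mean_gp, mean_gm, mean_g0, linSum_gp, linSum_gm, linSum_g0, m1, m2, m3, l1, l2, l3]
        simp only [lM]
        ring

lemma build_fin (M k : ℕ) : ∃ (n : ℕ) (f : (Fin n → Bool) → ℝ),
    IsBoolean f ∧ degree f ≤ 4 * M + k ∧ linSum f = lM M k 0 := by
  obtain ⟨ι, _, _, h⟩ := build M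
  obtain ⟨f, hb, hd, _, hl⟩ := h k 0
  obtain ⟨n, g, h1, h2, h3⟩ := exists_fin_reindex f
  exact ⟨n, g, h1 hb, h2 ▸ hd, h3.trans hl⟩

end Vale.Agent.P047
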