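import Vale.Agent.P047.Beat.AllDeg

namespace Vale.Agent.P047

open Finset

/-- average of `f` over its first variable. -/
noncomputable def avg0 {n : ℕ} (f : (Fin (n + 1) → Bool) → ℝ) : (Fin n → Bool) → ℝ :=
  fun y => (f (Fin.cons true y) + f (Fin.cons false y)) / 2

/-- derivative of `f` in its first variable. -/
noncomputable def dif0 {n : ℕ} (f : (Fin (n + 1) → Bool) → ℝ) : (Fin n → Bool) → ℝ :=
  fun y => (f (Fin.cons true y) - f (Fin.cons false y)) / 2

lemma chi_map_succ {n : ℕ} (S : Finset (Fin n)) (b : Bool) (y : Fin n → Bool) :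
    chi (S.map (Fin.succEmb n)) (Fin.cons b y : Fin (n + 1) → Bool) = chi S y := by
  unfold chi
  rw [Finset.prod_map]
  simp

lemma zero_notMem_map_succ {n : ℕ} (S : Finset (Fin n)) :
    (0 : Fin (n + 1)) ∉ S.map (Fin.succEmb n) := by
  simp [Fin.succ_ne_zero]

lemma chi_insert_zero {n : ℕ} (S : Finset (Fin n)) (b : Bool) (y : Fin n → Bool) :
    chi (insert 0 (S.map (Fin.succEmb n))) (Fin.cons b y : Fin (n + 1) → Bool) = sgn b * chi S y := by
  rw [← chi_map_succ S b y]
  unfold chi
  rw [Finset.prod_insert (zero_notMem_map_succ S)]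
  simp

lemma sum_cons {n : ℕ} (F : (Fin (n + 1) → Bool) → ℝ) :
    ∑ x : Fin (n + 1) → Bool, F x
      = ∑ y : Fin n → Bool, (F (Fin.cons true y) + F (Fin.cons false y)) := by
  rw [← (Fin.consEquiv (fun _ : Fin (n + 1) => Bool)).sum_comp, Fintype.sum_prod_type,
    Fintype.sum_bool, ← Finset.sum_add_distrib]
  rfl

lemma fourier_avg0 {n : ℕ} (f : (Fin (n + 1) → Bool) → ℝ) (S : Finset (Fin n)) :
    fourier (avg0 f) S = fourier f (S.map (Fin.succEmb n)) := by
  unfold fourier
  rw [sum_cons]
  simp only [chi_map_succ, avg0, Fintype.card_fin]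
  rw [pow_succ, div_eq_div_iff (by positivity) (by positivity), Finset.sum_mul, Finset.sum_mul]
  apply Finset.sum_congr rfl
  intro y _
  ring

lemma fourier_dif0 {n : ℕ} (f : (Fin (n + 1) → Bool) → ℝ) (S : Finset (Fin n)) :
    fourier (dif0 f) S = fourier f (insert 0 (S.map (Fin.succEmb n))) := by
  unfold fourier
  rw [sum_cons]
  simp only [chi_insert_zero, dif0, Fintype.card_fin, sgn_true, sgn_false]
  rw [pow_succ, div_eq_div_iff (by positivity) (by positivity), Finset.sum_mul, Finset.sum_mul]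
  apply Finset.sum_congr rfl
  intro y _
  ring

lemma linSum_succ {n : ℕ} (f : (Fin (n + 1) → Bool) → ℝ) :
    linSum f = fourier (dif0 f) ∅ + linSum (avg0 f) := by
  unfold linSum
  rw [Fin.sum_univ_succ, fourier_dif0]
  congr 1
  apply Finset.sum_congr rfl
  intro i _
  rw [fourier_avg0]
  simp

end Vale.Agent.P047
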