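import Vale.Agent.P047.Beat.Comp

namespace Vale.Agent.P047

open Finset

section
variable {ι : Type} [Fintype ι] [DecidableEq ι]

lemma toLeft_empty' {α β : Type} [DecidableEq α] [DecidableEq β] :
    (∅ : Finset (α ⊕ β)).toLeft = ∅ := by ext i; simp

/-- substitution of disjoint copies of a balanced Boolean function `g` into the `n` variables of
an arbitrary real function. -/
lemma comp_exists (g : (ι → Bool) → ℝ) (hg : IsBoolean g) (dg : ℕ) (hdg : degree g ≤ dg)
    (hm : fourier g ∅ = 0) (n : ℕ) :
    ∃ (κ : Type) (_ : Fintype κ) (_ : DecidableEq κ)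
      (Φ : ((Fin n → Bool) → ℝ) → ((κ → Bool) → ℝ)),
      (∀ x, ∃ y, ∀ f, Φ f x = f y) ∧
      (∀ f, (∀ S, fourier f S = 0) → ∀ U, fourier (Φ f) U = 0) ∧
      (∀ f k, (∀ S : Finset (Fin n), k < S.card → fourier f S = 0) →
        ∀ U : Finset κ, k * dg < U.card → fourier (Φ f) U = 0) ∧
      (∀ f, fourier (Φ f) ∅ = fourier f ∅) ∧
      (∀ f, linSum (Φ f) = linSum f * linSum g) := by
  induction n with
  | zero =>
    refine ⟨Empty, inferInstance, inferInstance, fun f => fun _ => f (fun i => i.elim0), ?_, ?_, ?_,
      ?_, ?_⟩
    · intro x
      exact ⟨fun i => i.elim0, fun f => rfl⟩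
    · intro f h U
      have h0 := h ∅
      have hc : f (fun i => i.elim0) = 0 := by
        have : fourier f ∅ = f (fun i => i.elim0) := by
          unfold fourier chi
          simp
          exact congrArg f (Subsingleton.elim _ _)
        rw [← this, h0]
      have hU : U = ∅ := by
        ext i; exact i.elim
      rw [hU, mean_const, hc]
    · intro f k _ U hU
      have hU' : U = ∅ := by
        ext i; exact i.elim
      rw [hU'] at hU
      simp at hU
    · intro f
      rw [mean_const]
      unfold fourier chi
      simp
      exact congrArg f (Subsingleton.elim _ _)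
    · intro f
      rw [linSum_const]
      unfold linSum
      simp
  | succ n ih =>
    obtain ⟨κ, hF, hD, Φ, p1, p0, p2, p3, p4⟩ := ih
    let one : (ι → Bool) → ℝ := fun _ => 1
    refine ⟨ι ⊕ κ, inferInstance, inferInstance,
      fun f => fun x => tens one (Φ (avg0 f)) x + tens g (Φ (dif0 f)) x, ?_, ?_, ?_, ?_, ?_⟩
    · intro x
      obtain ⟨y, hy⟩ := p1 (fun b => x (Sum.inr b))
      rcases hg (fun a => x (Sum.inl a)) with h | h
      · refine ⟨Fin.cons true y, fun f => ?_⟩
        simp only [tens, one, hy, h, avg0, dif0]
        ring
      · refine ⟨Fin.cons false y, fun f => ?_⟩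
        simp only [tens, one, hy, h, avg0, dif0]
        ring
    · intro f h U
      rw [fourier_add (tens one (Φ (avg0 f))) (tens g (Φ (dif0 f))), fourier_tens, fourier_tens,
        p0 (avg0 f) (fun S => by rw [fourier_avg0]; exact h _),
        p0 (dif0 f) (fun S => by rw [fourier_dif0]; exact h _)]
      ring
    · intro f k h U hU
      rw [fourier_add (tens one (Φ (avg0 f))) (tens g (Φ (dif0 f))), fourier_tens, fourier_tens]
      have hc : U.toLeft.card + U.toRight.card = U.card := Finset.card_toLeft_add_card_toRight
      have t1 : fourier one U.toLeft * fourier (Φ (avg0 f)) U.toRight = 0 := by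
        by_cases hL : U.toLeft.Nonempty
        · rw [fourier_const_of_nonempty 1 _ hL, zero_mul]
        · rw [Finset.not_nonempty_iff_eq_empty] at hL
          rw [hL, Finset.card_empty, zero_add] at hc
          rw [p2 (avg0 f) k (fun S hS => by
            rw [fourier_avg0]; apply h; rw [Finset.card_map]; exact hS) _ (by omega), mul_zero]
      have t2 : fourier g U.toLeft * fourier (Φ (dif0 f)) U.toRight = 0 := by
        cases k with
        | zero =>
          rw [p0 (dif0 f) (fun S => by
            rw [fourier_dif0]; apply h
            rw [Finset.card_insert_of_notMem (zero_notMem_map_succ S)]; omega), mul_zero]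
        | succ k =>
          by_cases hL : dg < U.toLeft.card
          · rw [fourier_eq_zero_of_degree_lt g _ (lt_of_le_of_lt hdg hL), zero_mul]
          · have hR : k * dg < U.toRight.card := by
              have : (k + 1) * dg = k * dg + dg := by ring
              omega
            rw [p2 (dif0 f) k (fun S hS => by
              rw [fourier_dif0]; apply h
              rw [Finset.card_insert_of_notMem (zero_notMem_map_succ S), Finset.card_map]
              omega) _ hR, mul_zero]
      rw [t1, t2, add_zero]
    · intro f
      rw [fourier_add (tens one (Φ (avg0 f))) (tens g (Φ (dif0 f))), mean_tens, mean_tens, hm,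
        mean_const, p3, fourier_avg0]
      simp
    · intro f
      rw [linSum_add (tens one (Φ (avg0 f))) (tens g (Φ (dif0 f))), linSum_tens, linSum_tens, hm,
        linSum_const, mean_const, p3 (avg0 f), p3 (dif0 f), p4, linSum_succ f]
      ring

end

end Vale.Agent.P047
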