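import Vale.Agent.P047.Beat.Comp2

namespace Vale.Agent.P047

open Finset

section
variable {α : Type} [Fintype α] [DecidableEq α]

/-- transport to the standard index type `Fin n`, keeping also the mean. -/
lemma exists_fin_reindex_mean (f : (α → Bool) → ℝ) :
    ∃ (n : ℕ) (g : (Fin n → Bool) → ℝ),
      (IsBoolean f → IsBoolean g) ∧ degree g = degree f ∧ linSum g = linSum f ∧
        fourier g ∅ = fourier f ∅ := by
  let e : α ≃ Fin (Fintype.card α) := Fintype.equivFin α
  refine ⟨Fintype.card α, fun y => f (fun a => y (e a)), ?_, ?_, ?_, ?_⟩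
  · intro h y
    exact h _
  · apply le_antisymm
    · apply degree_le_of_forall
      intro T hT
      have hT' : T = (T.map e.symm.toEmbedding).map e.toEmbedding := by
        ext i; simp
      rw [hT', fourier_reindex e f]
      apply fourier_eq_zero_of_degree_lt
      rw [Finset.card_map]; exact hT
    · apply degree_le_of_forall
      intro S hS
      rw [← fourier_reindex e f S]
      apply fourier_eq_zero_of_degree_lt
      rw [Finset.card_map]; exact hS
  · unfold linSum
    rw [← Equiv.sum_comp e]
    apply Finset.sum_congr rfl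
    intro a _
    rw [← fourier_reindex e f {a}, Finset.map_singleton]
    rfl
  · rw [← fourier_reindex e f ∅, Finset.map_empty]

lemma degree_sub_le (f g : (α → Bool) → ℝ) (d : ℕ) (hf : degree f ≤ d) (hg : degree g ≤ d) :
    degree (fun x => f x - g x) ≤ d := by
  apply degree_le_of_forall
  intro S hS
  rw [fourier_sub, fourier_eq_zero_of_degree_lt f S (lt_of_le_of_lt hf hS),
    fourier_eq_zero_of_degree_lt g S (lt_of_le_of_lt hg hS), sub_zero]

lemma degree_not_le (f : (α → Bool) → ℝ) : degree (fun x => f (fun i => !x i)) ≤ degree f := by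
  apply degree_le_of_forall
  intro S hS
  rw [fourier_not, fourier_eq_zero_of_degree_lt f S hS, mul_zero]

lemma linSum_not (f : (α → Bool) → ℝ) : linSum (fun x => f (fun i => !x i)) = - linSum f := by
  unfold linSum
  rw [← Finset.sum_neg_distrib]
  apply Finset.sum_congr rfl
  intro i _
  rw [fourier_not]
  simp

lemma mean_not (f : (α → Bool) → ℝ) : fourier (fun x => f (fun i => !x i)) ∅ = fourier f ∅ := by
  rw [fourier_not]
  simp

end

/-- composition of a Boolean function with disjoint copies of a balanced Boolean function. -/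
lemma compose {n m : ℕ} (f : (Fin n → Bool) → ℝ) (hf : IsBoolean f) (g : (Fin m → Bool) → ℝ)
    (hg : IsBoolean g) (hm : fourier g ∅ = 0) :
    ∃ (N : ℕ) (F : (Fin N → Bool) → ℝ), IsBoolean F ∧ degree F ≤ degree f * degree g ∧
      fourier F ∅ = fourier f ∅ ∧ linSum F = linSum f * linSum g := by
  obtain ⟨κ, _, _, Φ, p1, _, p2, p3, p4⟩ := comp_exists g hg (degree g) le_rfl hm n
  obtain ⟨N, F, h1, h2, h3, h4⟩ := exists_fin_reindex_mean (Φ f)
  refine ⟨N, F, h1 ?_, ?_, ?_, ?_⟩
  · intro x
    obtain ⟨y, hy⟩ := p1 x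
    rw [hy f]
    exact hf y
  · rw [h2]
    apply degree_le_of_forall
    intro U hU
    exact p2 f (degree f) (fun S hS => fourier_eq_zero_of_degree_lt f S hS) U hU
  · rw [h4, p3]
  · rw [h3, p4]

/-- the dictator on one bit. -/
lemma exists_dictator : ∃ f : (Fin 1 → Bool) → ℝ, IsBoolean f ∧ degree f ≤ 1 ∧ fourier f ∅ = 0 ∧
    linSum f = 1 := by
  refine ⟨fun x => bp x - bm x, ?_, ?_, ?_, ?_⟩
  · intro x
    rcases bit_cases x with ⟨k1, k2⟩ | ⟨k1, k2⟩
    · left; simp only [k1, k2]; norm_num
    · right; simp only [k1, k2]; norm_num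
  · simpa using degree_le_card (fun x : Fin 1 → Bool => bp x - bm x)
  · rw [fourier_sub, mean_bp, mean_bm]; norm_num
  · rw [linSum_sub, linSum_bp, linSum_bm]; norm_num

/-- tensor powers of a balanced Boolean function. -/
theorem power {n : ℕ} (f : (Fin n → Bool) → ℝ) (hf : IsBoolean f) (hm : fourier f ∅ = 0) (k : ℕ) :
    ∃ (N : ℕ) (F : (Fin N → Bool) → ℝ), IsBoolean F ∧ degree F ≤ degree f ^ k ∧
      fourier F ∅ = 0 ∧ linSum F = linSum f ^ k := by
  induction k with
  | zero =>
    obtain ⟨z, b, d, m, l⟩ := exists_dictator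
    exact ⟨1, z, b, by simpa using d, m, by simpa using l⟩
  | succ k ih =>
    obtain ⟨M, G, b, d, m, l⟩ := ih
    obtain ⟨N, F, b', d', m', l'⟩ := compose f hf G b m
    refine ⟨N, F, b', ?_, by rw [m', hm], ?_⟩
    · calc degree F ≤ degree f * degree G := d'
        _ ≤ degree f * degree f ^ k := Nat.mul_le_mul_left _ d
        _ = degree f ^ (k + 1) := by ring
    · rw [l', l]; ring

/-- if the constant-factor form holds, balanced functions satisfy the sharp form. -/
theorem sharp_of_weak_balanced (C : ℝ)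
    (hC : ∀ (n : ℕ) (f : (Fin n → Bool) → ℝ), IsBoolean f → linSum f ≤ C * Real.sqrt (degree f))
    {n : ℕ} (f : (Fin n → Bool) → ℝ) (hf : IsBoolean f) (hm : fourier f ∅ = 0) :
    linSum f ≤ Real.sqrt (degree f) := by
  by_contra hlt
  rw [not_le] at hlt
  have hs0 : 0 ≤ Real.sqrt (degree f) := Real.sqrt_nonneg _
  rcases Nat.eq_zero_or_pos (degree f) with h0 | hpos
  · have : linSum f = 0 := by
      unfold linSum
      apply Finset.sum_eq_zero
      intro i _
      apply fourier_eq_zero_of_degree_lt
      rw [h0]; simp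
    rw [this, h0] at hlt
    simp at hlt
  · have hs : 0 < Real.sqrt (degree f) := Real.sqrt_pos.mpr (by exact_mod_cast hpos)
    have hr : 1 < linSum f / Real.sqrt (degree f) := by
      rw [one_lt_div hs]; exact hlt
    obtain ⟨k, hk⟩ := pow_unbounded_of_one_lt C hr
    obtain ⟨N, F, b, d, _, l⟩ := power f hf hm k
    have h1 := hC N F b
    have h2 : Real.sqrt (degree F) ≤ Real.sqrt (degree f) ^ k := by
      apply Real.sqrt_le_iff.mpr
      refine ⟨by positivity, ?_⟩
      have : ((degree F : ℕ) : ℝ) ≤ ((degree f ^ k : ℕ) : ℝ) := by exact_mod_cast d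
      calc ((degree F : ℕ) : ℝ) ≤ ((degree f ^ k : ℕ) : ℝ) := this
        _ = (Real.sqrt (degree f) ^ k) ^ 2 := by
          rw [← pow_mul, mul_comm, pow_mul, Real.sq_sqrt (by positivity)]
          push_cast; ring
    have hCpos : 0 ≤ C := by
      by_contra hneg
      rw [not_le] at hneg
      have hp : 0 < (linSum f / Real.sqrt (degree f)) ^ k := by positivity
      obtain ⟨z, bz, _, _, lz⟩ := exists_dictator
      have := hC 1 z bz
      rw [lz] at this
      have h3 : C * Real.sqrt (degree z) ≤ 0 := mul_nonpos_of_nonpos_of_nonneg hneg.le (Real.sqrt_nonneg _)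
      linarith
    rw [l] at h1
    have h4 : linSum f ^ k ≤ C * Real.sqrt (degree f) ^ k :=
      h1.trans (mul_le_mul_of_nonneg_left h2 hCpos)
    rw [div_pow, lt_div_iff₀ (by positivity)] at hk
    linarith

end Vale.Agent.P047
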