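import Vale.Agent.P047.Beat.Comp3

namespace Vale.Agent.P047

open Finset

/-- `F(x,z) = z f(z x)`: a balanced Boolean function of degree at most `deg f + 1` whose linear sum
is the linear sum of `f` plus the mean of `f`. -/
lemma oddize_pos {n : ℕ} (f : (Fin n → Bool) → ℝ) (hf : IsBoolean f) :
    ∃ (N : ℕ) (F : (Fin N → Bool) → ℝ), IsBoolean F ∧ degree F ≤ degree f + 1 ∧
      fourier F ∅ = 0 ∧ linSum F = linSum f + fourier f ∅ := by
  let f' : (Fin n → Bool) → ℝ := fun x => f (fun i => !x i)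
  obtain ⟨N, F, h1, h2, h3, h4⟩ := exists_fin_reindex_mean (fun x => tens f bp x - tens f' bm x)
  have c1 : degree bp ≤ 1 := by simpa using degree_le_card bp
  have c2 : degree bm ≤ 1 := by simpa using degree_le_card bm
  refine ⟨N, F, h1 ?_, ?_, ?_, ?_⟩
  · intro x
    simp only [tens, f']
    rcases bit_cases (fun b => x (Sum.inr b)) with ⟨k1, k2⟩ | ⟨k1, k2⟩
    · rw [k1, k2]
      simpa using hf (fun a => x (Sum.inl a))
    · rw [k1, k2]
      rcases hf (fun i => !x (Sum.inl i)) with h | h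
      · right; rw [h]; norm_num
      · left; rw [h]; norm_num
  · rw [h2]
    exact degree_sub_le _ _ _ (degree_tens_le f bp _ 1 le_rfl c1)
      (degree_tens_le f' bm _ 1 (degree_not_le f) c2)
  · rw [h4, fourier_sub, mean_tens, mean_tens, mean_bp, mean_bm, mean_not]
    ring
  · rw [h3, linSum_sub, linSum_tens, linSum_tens, mean_bp, mean_bm, linSum_bp, linSum_bm,
      mean_not, linSum_not]
    ring

lemma oddize_neg {n : ℕ} (f : (Fin n → Bool) → ℝ) (hf : IsBoolean f) :
    ∃ (N : ℕ) (F : (Fin N → Bool) → ℝ), IsBoolean F ∧ degree F ≤ degree f + 1 ∧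
      fourier F ∅ = 0 ∧ linSum F = linSum f - fourier f ∅ := by
  let f' : (Fin n → Bool) → ℝ := fun x => f (fun i => !x i)
  obtain ⟨N, F, h1, h2, h3, h4⟩ := exists_fin_reindex_mean (fun x => tens f bm x - tens f' bp x)
  have c1 : degree bp ≤ 1 := by simpa using degree_le_card bp
  have c2 : degree bm ≤ 1 := by simpa using degree_le_card bm
  refine ⟨N, F, h1 ?_, ?_, ?_, ?_⟩
  · intro x
    simp only [tens, f']
    rcases bit_cases (fun b => x (Sum.inr b)) with ⟨k1, k2⟩ | ⟨k1, k2⟩
    · rw [k1, k2]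
      rcases hf (fun i => !x (Sum.inl i)) with h | h
      · right; rw [h]; norm_num
      · left; rw [h]; norm_num
    · rw [k1, k2]
      simpa using hf (fun a => x (Sum.inl a))
  · rw [h2]
    exact degree_sub_le _ _ _ (degree_tens_le f bm _ 1 le_rfl c2)
      (degree_tens_le f' bp _ 1 (degree_not_le f) c1)
  · rw [h4, fourier_sub, mean_tens, mean_tens, mean_bp, mean_bm, mean_not]
    ring
  · rw [h3, linSum_sub, linSum_tens, linSum_tens, mean_bp, mean_bm, linSum_bp, linSum_bm,
      mean_not, linSum_not]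
    ring

/-- if the constant-factor form holds, then every Boolean function satisfies
`sum of linear coefficients + |mean| ≤ sqrt (deg + 1)`. -/
theorem sharp_of_weak (C : ℝ)
    (hC : ∀ (n : ℕ) (f : (Fin n → Bool) → ℝ), IsBoolean f → linSum f ≤ C * Real.sqrt (degree f))
    {n : ℕ} (f : (Fin n → Bool) → ℝ) (hf : IsBoolean f) :
    linSum f + |fourier f ∅| ≤ Real.sqrt ((degree f : ℝ) + 1) := by
  have key : ∀ (N : ℕ) (F : (Fin N → Bool) → ℝ), IsBoolean F → degree F ≤ degree f + 1 →
      fourier F ∅ = 0 → linSum F ≤ Real.sqrt ((degree f : ℝ) + 1) := by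
    intro N F b d m
    refine (sharp_of_weak_balanced C hC F b m).trans (Real.sqrt_le_sqrt ?_)
    exact_mod_cast d
  obtain ⟨N1, F1, b1, d1, m1, l1⟩ := oddize_pos f hf
  obtain ⟨N2, F2, b2, d2, m2, l2⟩ := oddize_neg f hf
  have e1 := key N1 F1 b1 d1 m1
  have e2 := key N2 F2 b2 d2 m2
  rw [l1] at e1
  rw [l2] at e2
  rcases abs_cases (fourier f ∅) with ⟨h, _⟩ | ⟨h, _⟩
  · rw [h]; exact e1
  · rw [h]; linarith

end Vale.Agent.P047
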