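import Vale.Agent.P047.Beat.Comp4

namespace Vale.Agent.P047

open Finset

/-- self-improvement for an arbitrary exponent: a bound `C (deg f)^a` for all Boolean functions
forces the bound `(deg f)^a` for balanced ones. -/
theorem exponent_balanced (a : ℝ) (ha : 0 ≤ a) (C : ℝ)
    (hC : ∀ (n : ℕ) (f : (Fin n → Bool) → ℝ), IsBoolean f → linSum f ≤ C * (degree f : ℝ) ^ a)
    {n : ℕ} (f : (Fin n → Bool) → ℝ) (hf : IsBoolean f) (hm : fourier f ∅ = 0) :
    linSum f ≤ (degree f : ℝ) ^ a := by
  by_contra hlt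
  rw [not_le] at hlt
  rcases Nat.eq_zero_or_pos (degree f) with h0 | hpos
  · have : linSum f = 0 := by
      unfold linSum
      apply Finset.sum_eq_zero
      intro i _
      apply fourier_eq_zero_of_degree_lt
      rw [h0]; simp
    rw [this] at hlt
    have : (0 : ℝ) ≤ (degree f : ℝ) ^ a := Real.rpow_nonneg (by positivity) _
    linarith
  · have hd : (0 : ℝ) < (degree f : ℝ) := by exact_mod_cast hpos
    have hs : 0 < (degree f : ℝ) ^ a := Real.rpow_pos_of_pos hd _
    have hr : 1 < linSum f / (degree f : ℝ) ^ a := by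
      rw [one_lt_div hs]; exact hlt
    obtain ⟨k, hk⟩ := pow_unbounded_of_one_lt C hr
    obtain ⟨N, F, b, d, _, l⟩ := power f hf hm k
    have h1 := hC N F b
    have h2 : (degree F : ℝ) ^ a ≤ ((degree f : ℝ) ^ a) ^ k := by
      have : ((degree F : ℕ) : ℝ) ≤ (degree f : ℝ) ^ k := by exact_mod_cast d
      calc (degree F : ℝ) ^ a ≤ ((degree f : ℝ) ^ k) ^ a :=
            Real.rpow_le_rpow (by positivity) this ha
        _ = ((degree f : ℝ) ^ a) ^ k := by
          rw [← Real.rpow_natCast, ← Real.rpow_mul hd.le, mul_comm, Real.rpow_mul hd.le,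
            Real.rpow_natCast]
    have hCpos : 0 ≤ C := by
      by_contra hneg
      rw [not_le] at hneg
      obtain ⟨z, bz, _, _, lz⟩ := exists_dictator
      have := hC 1 z bz
      rw [lz] at this
      have h3 : C * (degree z : ℝ) ^ a ≤ 0 :=
        mul_nonpos_of_nonpos_of_nonneg hneg.le (Real.rpow_nonneg (by positivity) _)
      linarith
    rw [l] at h1
    have h4 : linSum f ^ k ≤ C * ((degree f : ℝ) ^ a) ^ k :=
      h1.trans (mul_le_mul_of_nonneg_left h2 hCpos)
    rw [div_pow, lt_div_iff₀ (by positivity)] at hk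
    linarith

/-- the same for all Boolean functions, at the price of one more degree. -/
theorem exponent_all (a : ℝ) (ha : 0 ≤ a) (C : ℝ)
    (hC : ∀ (n : ℕ) (f : (Fin n → Bool) → ℝ), IsBoolean f → linSum f ≤ C * (degree f : ℝ) ^ a)
    {n : ℕ} (f : (Fin n → Bool) → ℝ) (hf : IsBoolean f) :
    linSum f + |fourier f ∅| ≤ ((degree f : ℝ) + 1) ^ a := by
  have key : ∀ (N : ℕ) (F : (Fin N → Bool) → ℝ), IsBoolean F → degree F ≤ degree f + 1 →
      fourier F ∅ = 0 → linSum F ≤ ((degree f : ℝ) + 1) ^ a := by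
    intro N F b d m
    refine (exponent_balanced a ha C hC F b m).trans (Real.rpow_le_rpow (by positivity) ?_ ha)
    exact_mod_cast d
  obtain ⟨N1, F1, b1, d1, m1, l1⟩ := oddize_pos f hf
  obtain ⟨N2, F2, b2, d2, m2, l2⟩ := oddize_neg f hf
  have e1 := key N1 F1 b1 d1 m1
  have e2 := key N2 F2 b2 d2 m2
  rw [l1] at e1
  rw [l2] at e2
  rcases abs_cases (fourier f ∅) with ⟨h, _⟩ | ⟨h, _⟩
  · rw [h]; exact e1
  · rw [h]; linarith

end Vale.Agent.P047
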