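import Vale.Agent.P047.Basic

namespace Vale.Agent.P047

/-- sign of an integer, with value `1` at `0`. -/
noncomputable def sg (y : ℤ) : ℝ := if 0 ≤ y then 1 else -1

/-- mean of the function built from `M` gadgets, quota `k`, offset `y`. -/
noncomputable def aM : ℕ → ℕ → ℤ → ℝ
  | 0, _, y => sg y
  | (_ + 1), 0, y => sg y
  | (M + 1), (k + 1), y =>
      (9 / 32) * (aM M k (y + 1) + aM M k (y - 1)) + (14 / 32) * aM M (k + 1) y

/-- sum of the linear coefficients of the function built from `M` gadgets, quota `k`, offset `y`. -/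
noncomputable def lM : ℕ → ℕ → ℤ → ℝ
  | 0, _, _ => 0
  | (_ + 1), 0, _ => 0
  | (M + 1), (k + 1), y =>
      (27 / 32) * (aM M k (y + 1) - aM M k (y - 1))
        + (9 / 32) * (lM M k (y + 1) + lM M k (y - 1)) + (14 / 32) * lM M (k + 1) y

/-- expected absolute value of offset plus the sum of the first `k` nonzero gadget outputs. -/
noncomputable def vM : ℕ → ℕ → ℤ → ℝ
  | 0, _, y => |(y : ℝ)|
  | (_ + 1), 0, y => |(y : ℝ)|
  | (M + 1), (k + 1), y =>
      (9 / 32) * (vM M k (y + 1) + vM M k (y - 1)) + (14 / 32) * vM M (k + 1) y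

/-- expected absolute value of `y` plus a simple random walk of `k` steps. -/
noncomputable def wk : ℕ → ℤ → ℝ
  | 0, y => |(y : ℝ)|
  | (k + 1), y => (wk k (y + 1) + wk k (y - 1)) / 2

/-- expectation of `φ` under the binomial law with `M` trials and success probability `9/16`. -/
noncomputable def binE : ℕ → (ℕ → ℝ) → ℝ
  | 0, φ => φ 0
  | (M + 1), φ => (9 / 16) * binE M (fun j => φ (j + 1)) + (7 / 16) * binE M φ

/-- the central binomial probability `C(2j,j)/4^j`. -/
noncomputable def cc (j : ℕ) : ℝ := (Nat.centralBinom j : ℝ) / 4 ^ j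

end Vale.Agent.P047
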