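import Vale.Agent.P047.Beat.AllDeg2

namespace Vale.Agent.P047

open Finset

/-- out-neighbourhood of `j` in the quadratic-residue tournament on `Z_7`. -/
def qP (j : Fin 7) : Finset (Fin 7) := {j + 1, j + 2, j + 4}

/-- indicator of the event: some `j` has `x_j = +1` and `x_i = -1` for all `i` in `qP j`. -/
def qm (x : Fin 7 → Bool) : ℝ := ∑ j : Fin 7, subcube {j} (qP j) x

lemma qP_tournament : ∀ j k : Fin 7, j ≠ k →
    (({j} : Finset (Fin 7)) ∩ qP k).Nonempty ∨ (qP j ∩ {k}).Nonempty := by
  decide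

lemma qP_disj : ∀ j : Fin 7, Disjoint ({j} : Finset (Fin 7)) (qP j) := by
  decide

lemma qP_card : ∀ j : Fin 7, (qP j).card = 3 := by
  decide

lemma qP_union_card : ∀ j : Fin 7, (({j} : Finset (Fin 7)) ∪ qP j).card = 4 := by
  decide

lemma qP_compl_card : ∀ j : Fin 7, ((({j} : Finset (Fin 7)) ∪ qP j)ᶜ).card = 3 := by
  decide

lemma qm_cases (x : Fin 7 → Bool) : qm x = 1 ∨ qm x = 0 := by
  by_cases hm : ∃ j, subcube {j} (qP j) x = 1
  · obtain ⟨j, hj⟩ := hm
    left
    unfold qm
    rw [Finset.sum_eq_single j, hj]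
    · intro k _ hk
      have := subcube_mul_eq_zero {j} (qP j) {k} (qP k) x (qP_tournament j k (Ne.symm hk))
      rw [hj, one_mul] at this
      exact this
    · intro h
      exact absurd (mem_univ j) h
  · right
    unfold qm
    apply Finset.sum_eq_zero
    intro k _
    rcases subcube_cases {k} (qP k) x with h | h
    · exact absurd ⟨k, h⟩ hm
    · exact h

lemma fourier_qm_eq_zero (S : Finset (Fin 7)) (h : 4 < S.card) : fourier qm S = 0 := by
  unfold qm
  rw [fourier_finset_sum]
  apply Finset.sum_eq_zero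
  intro j _
  apply fourier_subcube_eq_zero _ _ _ (qP_disj j)
  rw [qP_union_card]
  exact h

lemma linSum_qm : linSum qm = -(7 / 8) := by
  unfold qm
  rw [linSum_finset_sum]
  have : ∀ j ∈ (univ : Finset (Fin 7)), linSum (subcube {j} (qP j)) = -(1 / 8) := by
    intro j _
    rw [linSum_subcube _ _ (qP_disj j), qP_compl_card, qP_card]
    simp
    norm_num
  rw [Finset.sum_congr rfl this]
  simp
  norm_num

/-- the seven-bit function of degree four with linear sum `7/4`. -/
lemma exists_f4 : ∃ f : (Fin 7 → Bool) → ℝ, IsBoolean f ∧ degree f ≤ 4 ∧ linSum f = 7 / 4 := by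
  refine ⟨fun x => (1 - qm x) - qm x, ?_, ?_, ?_⟩
  · intro x
    rcases qm_cases x with h | h
    · right; simp only [h]; norm_num
    · left; simp only [h]; norm_num
  · apply degree_le_of_forall
    intro S hS
    have hne : S.Nonempty := by
      rw [← Finset.card_pos]; omega
    rw [fourier_sub (fun x => 1 - qm x) qm, fourier_sub (fun _ => (1 : ℝ)) qm,
      fourier_one_eq_zero S hne, fourier_qm_eq_zero S hS]
    ring
  · rw [linSum_sub (fun x => 1 - qm x) qm, linSum_sub (fun _ => (1 : ℝ)) qm, linSum_const,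
      linSum_qm]
    norm_num

/-- for every degree `d ≥ 4` some Boolean function of degree at most `d` has a larger sum of linear
coefficients than Majority on `d` bits. -/
theorem beats_all (d : ℕ) (hd : 4 ≤ d) : ∃ (n : ℕ) (f : (Fin n → Bool) → ℝ),
    IsBoolean f ∧ degree f ≤ d ∧
      (∑ x : Fin d → Bool, |∑ i, sgn (x i)|) / 2 ^ d < ∑ i, fourier f {i} := by
  rcases Nat.lt_or_ge d 5 with h | h
  · have hd4 : d = 4 := by omega
    subst hd4
    obtain ⟨f, b, dg, e⟩ := exists_f4
    refine ⟨7, f, b, dg, ?_⟩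
    have hB : (∑ x : Fin 4 → Bool, |∑ i, sgn (x i)|) / 2 ^ 4 = wk 4 0 := by
      rw [wk_eq_cube]
      simp
    have : linSum f = ∑ i, fourier f {i} := rfl
    rw [hB, ← this, e, wk_zero]
    have h2 : (4 : ℕ) / 2 = 2 := by norm_num
    rw [h2]
    unfold cc
    have h3 : Nat.centralBinom 2 = 6 := by decide
    rw [h3]
    norm_num
  · exact beats_all_ge5 d h

end Vale.Agent.P047
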