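import Vale.Agent.P047.Beat.Num1
import Vale.Agent.P047.Beat.Num2

namespace Vale.Agent.P047

open Finset

lemma min_lower_aux (j K : ℕ) (s : ℝ) (hs : 0 < s) :
    (K : ℝ) + (-(1 / (4 * s))) * (((K : ℝ) + s) - (j : ℝ)) ^ 2 ≤ ((min j K : ℕ) : ℝ) := by
  have h4s : 0 < 4 * s := by linarith
  rcases le_total K j with h | h
  · rw [min_eq_right h]
    have : 0 ≤ (1 / (4 * s)) * (((K : ℝ) + s) - (j : ℝ)) ^ 2 := by positivity
    linarith
  · rw [min_eq_left h]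
    have key : (4 * s) * ((K : ℝ) - j) ≤ (((K : ℝ) + s) - (j : ℝ)) ^ 2 := by
      nlinarith [sq_nonneg (((K : ℝ) - j) - s)]
    have : (K : ℝ) - j ≤ (1 / (4 * s)) * (((K : ℝ) + s) - (j : ℝ)) ^ 2 := by
      rw [one_div, ← div_eq_inv_mul, le_div_iff₀ h4s]
      linarith
    linarith

/-- concentration: `E min(X, 9t) ≥ 9t - sqrt t` for `X` binomial with `16 t` trials. -/
lemma binE_min_lower (t : ℕ) (ht : 0 < t) :
    9 * (t : ℝ) - Real.sqrt t ≤ binE (16 * t) (fun j => ((min j (9 * t) : ℕ) : ℝ)) := by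
  set r : ℝ := Real.sqrt t with hr
  have htpos : (0 : ℝ) < t := by exact_mod_cast ht
  have hrpos : 0 < r := Real.sqrt_pos.mpr htpos
  have hr2 : r ^ 2 = t := Real.sq_sqrt htpos.le
  have hs : 0 < 2 * r := by linarith
  have h1 := binE_mono (16 * t)
    (fun j => ((9 * t : ℕ) : ℝ) + (-(1 / (4 * (2 * r)))) * ((((9 * t : ℕ) : ℝ) + 2 * r) - (j : ℝ)) ^ 2)
    (fun j => ((min j (9 * t) : ℕ) : ℝ)) (fun j => min_lower_aux j (9 * t) (2 * r) hs)
  rw [binE_add, binE_const, binE_smul, binE_sq] at h1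
  refine le_trans ?_ h1
  push_cast
  have e1 : (9 * (t : ℝ) + 2 * r - 9 / 16 * (16 * (t : ℝ))) ^ 2 + 63 / 256 * (16 * (t : ℝ))
      = (127 / 16) * r ^ 2 := by
    rw [hr2]
    have : (9 * (t : ℝ) + 2 * r - 9 / 16 * (16 * (t : ℝ))) = 2 * r := by ring
    rw [this]
    have : (2 * r) ^ 2 = 4 * (t : ℝ) := by rw [mul_pow, hr2]; norm_num
    rw [this]
    ring
  rw [e1]
  have e2 : -(1 / (4 * (2 * r))) * (127 / 16 * r ^ 2) = -(127 / 128) * r := by
    field_simp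
    ring
  rw [e2]
  linarith

lemma lM_lower (t : ℕ) (ht : 0 < t) :
    3 * cc (9 * t / 2) * (9 * (t : ℝ) - Real.sqrt t) ≤ lM (16 * t) (9 * t) 0 := by
  rw [lM_eq, vM_eq_binE]
  have h1 : binE (16 * t) (fun j => cc (9 * t / 2) * ((min j (9 * t) : ℕ) : ℝ)) ≤
      binE (16 * t) (fun j => wk (min j (9 * t)) 0) := by
    apply binE_mono
    intro j
    rw [wk_zero, mul_comm]
    apply mul_le_mul_of_nonneg_left _ (Nat.cast_nonneg _)
    apply cc_antitone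
    apply Nat.div_le_div_right
    exact min_le_right _ _
  rw [binE_smul] at h1
  have h2 := binE_min_lower t ht
  have h3 := mul_le_mul_of_nonneg_left h2 (cc_pos (9 * t / 2)).le
  simp only [Int.cast_zero, zero_mul, sub_zero]
  nlinarith

lemma numeric_main (t : ℕ) (ht : 10000 ≤ t) :
    (83 / 100 : ℝ) * Real.sqrt (73 * ((t : ℝ) + 1)) ≤ lM (16 * t) (9 * t) 0 := by
  have ht0 : 0 < t := by omega
  refine le_trans ?_ (lM_lower t ht0)
  set r : ℝ := Real.sqrt t with hr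
  have htR : (10000 : ℝ) ≤ t := by exact_mod_cast ht
  have htpos : (0 : ℝ) < t := by linarith
  have hrpos : 0 < r := Real.sqrt_pos.mpr htpos
  have hr2 : r ^ 2 = t := Real.sq_sqrt htpos.le
  have hr100 : 100 ≤ r := by
    rw [hr]
    apply Real.le_sqrt_of_sq_le
    linarith
  have hrt : r ≤ t / 100 := by
    rw [le_div_iff₀ (by norm_num)]
    nlinarith
  set c : ℝ := cc (9 * t / 2) with hc
  have hcpos : 0 < c := cc_pos _
  have hpi : Real.pi < 3.1416 := Real.pi_lt_d4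
  have hpipos : 0 < Real.pi := Real.pi_pos
  have hj : (((9 * t / 2 : ℕ) : ℝ)) + 1 / 2 ≤ (9 * (t : ℝ) + 1) / 2 := by
    have : (((9 * t / 2 : ℕ) : ℝ)) ≤ ((9 * t : ℕ) : ℝ) / 2 := Nat.cast_div_le
    push_cast at this
    linarith
  have hjpos : (0 : ℝ) < (((9 * t / 2 : ℕ) : ℝ)) + 1 / 2 := by positivity
  have hc2 : 2 / (Real.pi * (9 * (t : ℝ) + 1)) ≤ c ^ 2 := by
    refine le_trans ?_ (cc_sq_lower (9 * t / 2))
    rw [div_le_div_iff₀ (by positivity) (by positivity)]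
    nlinarith
  have hc3 : 2 ≤ c ^ 2 * (Real.pi * (9 * (t : ℝ) + 1)) := by
    rwa [div_le_iff₀ (by positivity)] at hc2
  have hB : 0 ≤ 3 * c * (9 * (t : ℝ) - r) := by
    have : 0 ≤ 9 * (t : ℝ) - r := by linarith
    positivity
  have hA : 0 ≤ (83 / 100 : ℝ) * Real.sqrt (73 * ((t : ℝ) + 1)) := by positivity
  rw [← pow_le_pow_iff_left₀ hA hB (two_ne_zero)]
  rw [mul_pow, Real.sq_sqrt (by positivity)]
  have h9 : (899 / 100 * (t : ℝ)) ^ 2 ≤ (9 * (t : ℝ) - r) ^ 2 := by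
    apply pow_le_pow_left₀ (by positivity)
    linarith
  have hmain : (83 / 100 : ℝ) ^ 2 * (73 * ((t : ℝ) + 1)) * (Real.pi * (9 * (t : ℝ) + 1)) ≤
      18 * (899 / 100 * (t : ℝ)) ^ 2 := by
    have h1 : (83 / 100 : ℝ) ^ 2 * (73 * ((t : ℝ) + 1)) * (Real.pi * (9 * (t : ℝ) + 1)) ≤
        (83 / 100 : ℝ) ^ 2 * (73 * ((t : ℝ) + 1)) * (3.1416 * (9 * (t : ℝ) + 1)) := by
      apply mul_le_mul_of_nonneg_left _ (by positivity)
      apply mul_le_mul_of_nonneg_right hpi.le (by positivity)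
    refine le_trans h1 ?_
    nlinarith
  have hP : 0 < Real.pi * (9 * (t : ℝ) + 1) := by positivity
  have hfin : (83 / 100 : ℝ) ^ 2 * (73 * ((t : ℝ) + 1)) * (Real.pi * (9 * (t : ℝ) + 1)) ≤
      (3 * c * (9 * (t : ℝ) - r)) ^ 2 * (Real.pi * (9 * (t : ℝ) + 1)) := by
    have : (3 * c * (9 * (t : ℝ) - r)) ^ 2 * (Real.pi * (9 * (t : ℝ) + 1)) =
        9 * (c ^ 2 * (Real.pi * (9 * (t : ℝ) + 1))) * (9 * (t : ℝ) - r) ^ 2 := by ring
    rw [this]
    have h18 : 18 * (9 * (t : ℝ) - r) ^ 2 ≤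
        9 * (c ^ 2 * (Real.pi * (9 * (t : ℝ) + 1))) * (9 * (t : ℝ) - r) ^ 2 := by
      apply mul_le_mul_of_nonneg_right _ (sq_nonneg _)
      linarith
    linarith
  exact le_of_mul_le_mul_right hfin hP

end Vale.Agent.P047
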