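import Vale.Agent.P047.Beat.Build
import Vale.Agent.P047.Beat.Num3

namespace Vale.Agent.P047

open Finset

lemma sqrt_two_div_pi_lt : Real.sqrt (2 / Real.pi) < 83 / 100 := by
  rw [Real.sqrt_lt' (by norm_num)]
  have h3 : (3 : ℝ) < Real.pi := Real.pi_gt_three
  rw [div_lt_iff₀ (by linarith)]
  nlinarith

lemma beats_majority : Real.sqrt (2 / Real.pi) < 83 / 100 ∧
    ∃ d₀ : ℕ, ∀ d : ℕ, d₀ ≤ d → ∃ (n : ℕ) (f : (Fin n → Bool) → ℝ),
      IsBoolean f ∧ degree f ≤ d ∧ (83 / 100 : ℝ) * Real.sqrt d ≤ ∑ i, fourier f {i} := by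
  refine ⟨sqrt_two_div_pi_lt, 730000, fun d hd => ?_⟩
  obtain ⟨n, f, hb, hdeg, hl⟩ := build_fin (16 * (d / 73)) (9 * (d / 73))
  have ht : 10000 ≤ d / 73 := by omega
  have h1 : 73 * (d / 73) ≤ d := Nat.mul_div_le d 73
  have h2 : d < 73 * (d / 73 + 1) := by omega
  refine ⟨n, f, hb, by omega, ?_⟩
  have h3 := numeric_main (d / 73) ht
  have h4 : (d : ℝ) ≤ 73 * (((d / 73 : ℕ) : ℝ) + 1) := by
    have : (d : ℝ) ≤ ((73 * (d / 73 + 1) : ℕ) : ℝ) := by exact_mod_cast h2.le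
    simpa using this
  have h5 : Real.sqrt d ≤ Real.sqrt (73 * (((d / 73 : ℕ) : ℝ) + 1)) := Real.sqrt_le_sqrt h4
  have h6 : linSum f = ∑ i, fourier f {i} := rfl
  rw [← h6, hl]
  linarith

end Vale.Agent.P047
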