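import Vale.Agent.P047.Beat.Defs

namespace Vale.Agent.P047

open Finset

lemma abs_eq_mul_sg (y : ℤ) : |(y : ℝ)| = (y : ℝ) * sg y := by
  unfold sg
  split_ifs with h
  · have : (0 : ℝ) ≤ (y : ℝ) := by exact_mod_cast h
    rw [abs_of_nonneg this, mul_one]
  · have : (y : ℝ) < 0 := by exact_mod_cast (not_le.mp h)
    rw [abs_of_neg this]
    ring

lemma lM_eq (M k : ℕ) (y : ℤ) : lM M k y = 3 * (vM M k y - (y : ℝ) * aM M k y) := by
  induction M generalizing k y with
  | zero =>
    simp only [lM, vM, aM]
    rw [abs_eq_mul_sg]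
    ring
  | succ M ih =>
    cases k with
    | zero =>
      simp only [lM, vM, aM]
      rw [abs_eq_mul_sg]
      ring
    | succ k =>
      simp only [lM, vM, aM]
      rw [ih k (y + 1), ih k (y - 1), ih (k + 1) y]
      push_cast
      ring

lemma binE_const (M : ℕ) (c : ℝ) : binE M (fun _ => c) = c := by
  induction M with
  | zero => simp [binE]
  | succ M ih =>
    simp only [binE]
    rw [ih]
    ring

lemma binE_add (M : ℕ) (φ ψ : ℕ → ℝ) :
    binE M (fun j => φ j + ψ j) = binE M φ + binE M ψ := by
  induction M generalizing φ ψ with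
  | zero => simp [binE]
  | succ M ih =>
    simp only [binE]
    rw [ih φ ψ, ih (fun j => φ (j + 1)) (fun j => ψ (j + 1))]
    ring

lemma binE_smul (M : ℕ) (c : ℝ) (φ : ℕ → ℝ) : binE M (fun j => c * φ j) = c * binE M φ := by
  induction M generalizing φ with
  | zero => simp [binE]
  | succ M ih =>
    simp only [binE]
    rw [ih φ, ih (fun j => φ (j + 1))]
    ring

lemma binE_mono (M : ℕ) (φ ψ : ℕ → ℝ) (h : ∀ j, φ j ≤ ψ j) : binE M φ ≤ binE M ψ := by
  induction M generalizing φ ψ with
  | zero => simpa [binE] using h 0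
  | succ M ih =>
    simp only [binE]
    have h1 := ih φ ψ h
    have h2 := ih (fun j => φ (j + 1)) (fun j => ψ (j + 1)) (fun j => h (j + 1))
    linarith

/-- second moment about an arbitrary centre. -/
lemma binE_sq (M : ℕ) (c : ℝ) :
    binE M (fun j => (c - (j : ℝ)) ^ 2) = (c - 9 / 16 * M) ^ 2 + 63 / 256 * M := by
  induction M generalizing c with
  | zero => simp [binE]
  | succ M ih =>
    simp only [binE]
    have h1 : (fun j : ℕ => (c - ((j + 1 : ℕ) : ℝ)) ^ 2) = fun j : ℕ => ((c - 1) - (j : ℝ)) ^ 2 := by
      funext j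
      push_cast
      ring
    rw [h1, ih c, ih (c - 1)]
    push_cast
    ring

lemma vM_eq_binE (M k : ℕ) (y : ℤ) : vM M k y = binE M (fun j => wk (min j k) y) := by
  induction M generalizing k y with
  | zero => simp [vM, binE, wk]
  | succ M ih =>
    cases k with
    | zero =>
      simp only [vM, Nat.min_zero, wk]
      rw [binE_const]
    | succ k =>
      simp only [vM, binE]
      rw [ih k (y + 1), ih k (y - 1), ih (k + 1) y, ← binE_add]
      have h1 : (fun j : ℕ => wk (min (j + 1) (k + 1)) y) =
          fun j : ℕ => (1 / 2 : ℝ) * (wk (min j k) (y + 1) + wk (min j k) (y - 1)) := by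
        funext j
        rw [Nat.add_min_add_right]
        simp only [wk]
        ring
      rw [h1, binE_smul]
      ring

end Vale.Agent.P047
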