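import Vale.Agent.P047.Beat.Comp4

namespace Vale.Agent.P047

open Finset

section
variable {ι : Type} [Fintype ι] [DecidableEq ι]

/-- the value forced on coordinate `i` by the subcube `(P,N)` (zero if `i` is free). -/
def sfix (P N : Finset ι) (i : ι) : ℝ := (if i ∈ P then 1 else 0) - (if i ∈ N then 1 else 0)

lemma subcube_mul_sgn (P N : Finset ι) (hPN : Disjoint P N) (x : ι → Bool) (i : ι)
    (hi : i ∈ P ∪ N) : subcube P N x * sgn (x i) = subcube P N x * sfix P N i := by
  unfold subcube sfix
  split_ifs with h h1 h2 h2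
  · exact absurd h2 (Finset.disjoint_left.mp hPN h1)
  · rw [h.1 i h1]; simp [sgn]
  · rw [h.2 i h2]; simp [sgn]
  · rw [Finset.mem_union] at hi
    rcases hi with hi | hi
    · exact absurd hi h1
    · exact absurd hi h2
  all_goals simp

lemma sfix_eq_zero (P N : Finset ι) (i : ι) (hi : i ∉ P ∪ N) : sfix P N i = 0 := by
  rw [Finset.mem_union, not_or] at hi
  unfold sfix
  rw [if_neg hi.1, if_neg hi.2, sub_zero]

lemma sum_subcube (P N : Finset ι) (hPN : Disjoint P N) :
    ∑ x : ι → Bool, subcube P N x = 2 ^ ((P ∪ N)ᶜ).card := by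
  have h := sum_subcube_tilt P N hPN 0
  simpa using h

lemma sum_subcube_pair (P N : Finset ι) (hPN : Disjoint P N) (i j : ι) :
    ∑ x : ι → Bool, subcube P N x * (sgn (x i) * sgn (x j)) =
      (if i = j then 1 else sfix P N i * sfix P N j) * 2 ^ ((P ∪ N)ᶜ).card := by
  by_cases hij : i = j
  · subst hij
    rw [if_pos rfl, one_mul, ← sum_subcube P N hPN]
    apply Finset.sum_congr rfl
    intro x _
    have : sgn (x i) * sgn (x i) = 1 := by
      cases x i <;> simp [sgn]
    rw [this, mul_one]
  · rw [if_neg hij]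
    by_cases hs : ({i, j} : Finset ι) ⊆ P ∪ N
    · have hi : i ∈ P ∪ N := hs (by simp)
      have hj : j ∈ P ∪ N := hs (by simp)
      rw [← sum_subcube P N hPN, Finset.mul_sum]
      apply Finset.sum_congr rfl
      intro x _
      calc subcube P N x * (sgn (x i) * sgn (x j))
          = (subcube P N x * sgn (x i)) * sgn (x j) := by ring
        _ = (subcube P N x * sgn (x j)) * sfix P N i := by
          rw [subcube_mul_sgn P N hPN x i hi]; ring
        _ = sfix P N i * sfix P N j * subcube P N x := by
          rw [subcube_mul_sgn P N hPN x j hj]; ring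
    · have h0 := sum_subcube_chi_eq_zero P N {i, j} hPN hs
      have hz : sfix P N i * sfix P N j = 0 := by
        by_cases hi : i ∈ P ∪ N
        · have hj : j ∉ P ∪ N := by
            intro hj
            apply hs
            intro k hk
            rw [Finset.mem_insert, Finset.mem_singleton] at hk
            rcases hk with rfl | rfl
            · exact hi
            · exact hj
          rw [sfix_eq_zero P N j hj, mul_zero]
        · rw [sfix_eq_zero P N i hi, zero_mul]
      rw [hz, zero_mul, ← h0]
      apply Finset.sum_congr rfl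
      intro x _
      unfold chi
      rw [Finset.prod_pair hij]

lemma sum_sfix (P N : Finset ι) : ∑ i, sfix P N i = (P.card : ℝ) - N.card := by
  unfold sfix
  rw [Finset.sum_sub_distrib]
  simp

lemma sum_sfix_sq (P N : Finset ι) (hPN : Disjoint P N) :
    ∑ i, sfix P N i * sfix P N i = (P.card : ℝ) + N.card := by
  have h : ∀ i, sfix P N i * sfix P N i = (if i ∈ P then 1 else 0) + (if i ∈ N then 1 else 0) := by
    intro i
    unfold sfix
    split_ifs with h1 h2 h2
    · exact absurd h2 (Finset.disjoint_left.mp hPN h1)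
    all_goals norm_num
  simp_rw [h]
  rw [Finset.sum_add_distrib]
  simp

/-- second moment of the sum of the coordinates on a subcube. -/
lemma sum_subcube_sq (P N : Finset ι) (hPN : Disjoint P N) :
    ∑ x : ι → Bool, subcube P N x * (∑ i, sgn (x i)) ^ 2 =
      (((P.card : ℝ) - N.card) ^ 2 + (Fintype.card ι : ℝ) - ((P.card : ℝ) + N.card))
        * 2 ^ ((P ∪ N)ᶜ).card := by
  have h1 : ∀ x : ι → Bool, subcube P N x * (∑ i, sgn (x i)) ^ 2
      = ∑ i, ∑ j, subcube P N x * (sgn (x i) * sgn (x j)) := by
    intro x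
    rw [sq, Finset.sum_mul_sum, Finset.mul_sum]
    apply Finset.sum_congr rfl
    intro i _
    rw [Finset.mul_sum]
  simp_rw [h1]
  rw [Finset.sum_comm]
  have h2 : ∀ i : ι, ∑ x : ι → Bool, ∑ j, subcube P N x * (sgn (x i) * sgn (x j))
      = ∑ j, (if i = j then 1 else sfix P N i * sfix P N j) * 2 ^ ((P ∪ N)ᶜ).card := by
    intro i
    rw [Finset.sum_comm]
    apply Finset.sum_congr rfl
    intro j _
    exact sum_subcube_pair P N hPN i j
  simp_rw [h2, ← Finset.sum_mul]
  congr 1
  have h3 : ∀ i j : ι, (if i = j then (1 : ℝ) else sfix P N i * sfix P N j)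
      = sfix P N i * sfix P N j + (if i = j then 1 - sfix P N i * sfix P N j else 0) := by
    intro i j
    split_ifs <;> ring
  simp_rw [h3, Finset.sum_add_distrib, Finset.sum_ite_eq, Finset.mem_univ, if_true,
    Finset.sum_sub_distrib]
  rw [← Finset.sum_mul_sum, sum_sfix, sum_sfix_sq P N hPN]
  simp
  ring

lemma sum_sq_cube : ∑ x : ι → Bool, (∑ i, sgn (x i)) ^ 2 = (Fintype.card ι : ℝ) * 2 ^ Fintype.card ι := by
  have h := sum_subcube_sq (∅ : Finset ι) ∅ (by simp)
  have e : ∀ x : ι → Bool, subcube (∅ : Finset ι) ∅ x = 1 := by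
    intro x; simp [subcube]
  simp_rw [e, one_mul] at h
  rw [h]
  simp

end

end Vale.Agent.P047
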