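import Vale.Agent.P047.Beat.Part

namespace Vale.Agent.P047

open Finset

section
variable {ι : Type} [Fintype ι] [DecidableEq ι]

lemma linSum_eq (f : (ι → Bool) → ℝ) :
    linSum f = (∑ x : ι → Bool, f x * ∑ i, sgn (x i)) / 2 ^ Fintype.card ι := by
  unfold linSum fourier
  rw [← Finset.sum_div]
  congr 1
  rw [Finset.sum_comm]
  apply Finset.sum_congr rfl
  intro x _
  rw [Finset.mul_sum]
  apply Finset.sum_congr rfl
  intro i _
  simp [chi]

lemma sum_subcube_lin (P N : Finset ι) (hPN : Disjoint P N) :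
    ∑ x : ι → Bool, subcube P N x * ∑ i, sgn (x i) =
      ((P.card : ℝ) - N.card) * 2 ^ ((P ∪ N)ᶜ).card := by
  simp_rw [Finset.mul_sum]
  rw [Finset.sum_comm]
  simp_rw [sum_subcube_sgn P N hPN, ← Finset.sum_mul]
  congr 1
  exact sum_sfix P N

lemma two_pow_compl (P N : Finset ι) (hPN : Disjoint P N) :
    (2 : ℝ) ^ ((P ∪ N)ᶜ).card * 2 ^ (P.card + N.card) = 2 ^ Fintype.card ι := by
  rw [← pow_add, Finset.card_compl, Finset.card_union_of_disjoint hPN]
  congr 1
  have : (P ∪ N).card ≤ Fintype.card ι := Finset.card_le_univ _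
  rw [Finset.card_union_of_disjoint hPN] at this
  omega

/-- a (possibly fractional) partition of the cube into subcubes, `f` being a combination with
coefficients of modulus at most one: the linear sum is at most the square root of the average
codimension. -/
theorem partition_bound (f : (ι → Bool) → ℝ)
    (T : Finset (Finset ι × Finset ι)) (c e : Finset ι × Finset ι → ℝ)
    (hc : ∀ C ∈ T, 0 ≤ c C) (hdisj : ∀ C ∈ T, Disjoint C.1 C.2) (he : ∀ C ∈ T, |e C| ≤ 1)
    (hpart : ∀ x, ∑ C ∈ T, c C * subcube C.1 C.2 x = 1)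
    (hf : ∀ x, f x = ∑ C ∈ T, c C * e C * subcube C.1 C.2 x) :
    linSum f ≤ Real.sqrt (∑ C ∈ T, c C * ((C.1.card : ℝ) + C.2.card) / 2 ^ (C.1.card + C.2.card)) := by
  set n := Fintype.card ι with hn
  let p : Finset ι × Finset ι → ℝ := fun C => c C * 2 ^ ((C.1 ∪ C.2)ᶜ).card
  let m : Finset ι × Finset ι → ℝ := fun C => (C.1.card : ℝ) - C.2.card
  let k : Finset ι × Finset ι → ℝ := fun C => (C.1.card : ℝ) + C.2.card
  have hp : ∀ C ∈ T, 0 ≤ p C := fun C hC => mul_nonneg (hc C hC) (by positivity)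
  -- total mass
  have h1 : ∑ C ∈ T, p C = 2 ^ n := by
    have : ∑ x : ι → Bool, ∑ C ∈ T, c C * subcube C.1 C.2 x = 2 ^ n := by
      simp_rw [hpart]
      simp [hn]
    rw [Finset.sum_comm] at this
    rw [← this]
    apply Finset.sum_congr rfl
    intro C hC
    rw [← Finset.mul_sum, sum_subcube C.1 C.2 (hdisj C hC)]
  -- second moment
  have h2 : ∑ C ∈ T, p C * (m C ^ 2 + n - k C) = n * 2 ^ n := by
    have : ∑ x : ι → Bool, (∑ C ∈ T, c C * subcube C.1 C.2 x) * (∑ i, sgn (x i)) ^ 2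
        = n * 2 ^ n := by
      simp_rw [hpart, one_mul]
      exact sum_sq_cube
    simp_rw [Finset.sum_mul] at this
    rw [Finset.sum_comm] at this
    rw [← this]
    apply Finset.sum_congr rfl
    intro C hC
    have := sum_subcube_sq C.1 C.2 (hdisj C hC)
    simp_rw [mul_assoc]
    rw [← Finset.mul_sum, this]
    simp only [p, m, k]
    ring
  have h3 : ∑ C ∈ T, p C * m C ^ 2 = ∑ C ∈ T, p C * k C := by
    have : ∑ C ∈ T, p C * (m C ^ 2 + n - k C)
        = ∑ C ∈ T, p C * m C ^ 2 + n * ∑ C ∈ T, p C - ∑ C ∈ T, p C * k C := by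
      rw [Finset.mul_sum, ← Finset.sum_add_distrib, ← Finset.sum_sub_distrib]
      apply Finset.sum_congr rfl
      intro C _
      ring
    rw [this, h1] at h2
    linarith
  -- the linear sum
  have h4 : linSum f * 2 ^ n = ∑ C ∈ T, p C * e C * m C := by
    rw [linSum_eq, div_mul_cancel₀ _ (by positivity)]
    simp_rw [hf, Finset.sum_mul]
    rw [Finset.sum_comm]
    apply Finset.sum_congr rfl
    intro C hC
    simp_rw [mul_assoc]
    rw [← Finset.mul_sum, ← Finset.mul_sum, sum_subcube_lin C.1 C.2 (hdisj C hC)]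
    simp only [p, m]
    ring
  have h5 : (∑ C ∈ T, p C * e C * m C) ^ 2 ≤ (∑ C ∈ T, p C * e C ^ 2) * ∑ C ∈ T, p C * m C ^ 2 := by
    apply Finset.sum_sq_le_sum_mul_sum_of_sq_le_mul
    · intro C hC; exact mul_nonneg (hp C hC) (sq_nonneg _)
    · intro C hC; exact mul_nonneg (hp C hC) (sq_nonneg _)
    · intro C _; apply le_of_eq; ring
  have h6 : ∑ C ∈ T, p C * e C ^ 2 ≤ 2 ^ n := by
    rw [← h1]
    apply Finset.sum_le_sum
    intro C hC
    have : e C ^ 2 ≤ 1 := by
      rw [← sq_abs]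
      exact pow_le_one₀ (abs_nonneg _) (he C hC)
    calc p C * e C ^ 2 ≤ p C * 1 := mul_le_mul_of_nonneg_left this (hp C hC)
      _ = p C := mul_one _
  have h7 : 0 ≤ ∑ C ∈ T, p C * k C := by
    apply Finset.sum_nonneg
    intro C hC
    exact mul_nonneg (hp C hC) (by simp only [k]; positivity)
  have h8 : ∑ C ∈ T, c C * ((C.1.card : ℝ) + C.2.card) / 2 ^ (C.1.card + C.2.card)
      = (∑ C ∈ T, p C * k C) / 2 ^ n := by
    rw [Finset.sum_div]
    apply Finset.sum_congr rfl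
    intro C hC
    have h := two_pow_compl C.1 C.2 (hdisj C hC)
    rw [← hn] at h
    rw [div_eq_div_iff (by positivity) (by positivity), ← h]
    simp only [p, k]
    ring
  apply Real.le_sqrt_of_sq_le
  rw [h8, le_div_iff₀ (by positivity)]
  have h9 : (linSum f * 2 ^ n) ^ 2 ≤ 2 ^ n * ∑ C ∈ T, p C * k C := by
    rw [h4]
    calc (∑ C ∈ T, p C * e C * m C) ^ 2
        ≤ (∑ C ∈ T, p C * e C ^ 2) * ∑ C ∈ T, p C * m C ^ 2 := h5
      _ ≤ 2 ^ n * ∑ C ∈ T, p C * k C := by
        rw [h3]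
        exact mul_le_mul_of_nonneg_right h6 h7
  have hpos : (0 : ℝ) < 2 ^ n := by positivity
  have : (linSum f ^ 2 * 2 ^ n) * 2 ^ n ≤ (∑ C ∈ T, p C * k C) * 2 ^ n := by
    calc (linSum f ^ 2 * 2 ^ n) * 2 ^ n = (linSum f * 2 ^ n) ^ 2 := by ring
      _ ≤ 2 ^ n * ∑ C ∈ T, p C * k C := h9
      _ = (∑ C ∈ T, p C * k C) * 2 ^ n := by ring
  exact le_of_mul_le_mul_right this hpos

end

end Vale.Agent.P047
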